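import Vale.Agent.P014Y.Tp.St0

/-! # P014 Y, top: sizes of roots of unity at three -/

set_option linter.all false

noncomputable section

namespace Vale.Agent.P014Y.Tp.Iq

open Vale.Agent.P027M.M (ze)

variable {V : AbsoluteValue ℂ ℝ} {k : ℕ} {u ζ : ℂ}

theorem add_eq (n : IsNonarchimedean V) {x y : ℂ} (h : V y < V x) : V (x + y) = V x := by
  refine le_antisymm ((n x y).trans (max_le le_rfl h.le)) ?_
  have := n (x + y) (-y)
  rw [add_neg_cancel_right, V.map_neg] at this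
  exact (le_max_iff.1 this).resolve_right h.not_ge

theorem rt {m : ℕ} (m0 : m ≠ 0) (h : u ^ m = 1) : V u = 1 :=
  (pow_eq_one_iff_of_nonneg (V.nonneg u) m0).1 (by rw [← map_pow, h, map_one])

theorem pw (n : IsNonarchimedean V) {r : ℝ} (h1 : V u = 1) (h : V (u - 1) ≤ r) (m : ℕ) :
    V (u ^ m - 1) ≤ r := by
  induction m with
  | zero => simpa using (V.nonneg _).trans h
  | succ m ih =>
    rw [show u ^ (m + 1) - 1 = u * (u ^ m - 1) + (u - 1) by ring]
    exact (n _ _).trans (max_le (by rwa [map_mul, h1, one_mul]) h)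

/-- the size of `ζ - 1` -/
theorem vz (n : IsNonarchimedean V) (h3 : V 3 = 1 / 3) (k : ℕ) :
    ∀ u : ℂ, IsPrimitiveRoot u (3 * 3 ^ k) → V (u - 1) ^ (2 * 3 ^ k) = 1 / 3 := by
  induction k with
  | zero =>
    intro u h
    have e : u ^ 3 = 1 := h.pow_eq_one
    have a : (u - 1) ^ 2 = -(3 * u) := by
      have : (u - 1) * (u ^ 2 + u + 1) = 0 := by linear_combination e
      linear_combination (mul_eq_zero.1 this).resolve_left (sub_ne_zero.2 (h.ne_one (by norm_num)))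
    rw [pow_zero, mul_one, ← map_pow, a, V.map_neg, map_mul, h3, rt three_ne_zero e, mul_one]
  | succ k ih =>
    intro u h
    have a := ih (u ^ 3) (h.pow (by positivity) (by ring))
    have u1 : V u = 1 := rt (by positivity) h.pow_eq_one
    have e : u ^ 3 - 1 = (u - 1) ^ 3 + 3 * u * (u - 1) := by ring
    have b : V (3 * u * (u - 1)) = V (u - 1) / 3 := by
      rw [map_mul, map_mul, h3, u1]
      ring
    have p := V.nonneg (u - 1)
    rw [e] at a
    by_cases c : 1 / 3 < V (u - 1) ^ 2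
    · have q : 0 < V (u - 1) := p.lt_of_ne fun z => by norm_num [← z] at c
      rw [add_eq n (by rw [b, map_pow]; nlinarith), map_pow, ← pow_mul] at a
      rw [← a]
      congr 1
      ring
    · have d : V ((u - 1) ^ 3 + 3 * u * (u - 1)) ≤ 1 / 3 := (n _ _).trans (by
        rw [b, map_pow]
        exact max_le (by nlinarith) (by nlinarith))
      have := pow_le_pow_left₀ (V.nonneg _) d (2 * 3 ^ k)
      have := pow_le_pow_of_le_one (a := (1 / 3 : ℝ)) (by norm_num) (by norm_num)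
        (show 2 ≤ 2 * 3 ^ k by have := Nat.one_le_pow k 3 (by norm_num); omega)
      linarith

theorem v_eq {v w : ℝ} (h0 : 0 ≤ v) (h1 : 0 ≤ w) (h : v ^ (2 * 3 ^ k) = 1 / 3)
    (h' : w ^ (2 * 3 ^ k) = 1 / 3) : v = w :=
  (pow_left_inj₀ h0 h1 (by positivity)).1 (h.trans h'.symm)

theorem v_lt {v : ℝ} (h : v ^ (2 * 3 ^ k) = 1 / 3) : v < 1 := by
  by_contra! c
  have := one_le_pow₀ (n := 2 * 3 ^ k) c
  linarith

theorem v_gt {v : ℝ} {a : ℕ} (h0 : 0 ≤ v) (h : v ^ (2 * 3 ^ k) = 1 / 3) (ha : a < 2 * 3 ^ k) :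
    1 / 3 < v ^ a :=
  h ▸ pow_lt_pow_right_of_lt_one₀ (h0.lt_of_ne fun z => by
    rw [← z, zero_pow (by positivity)] at h
    norm_num at h) (v_lt h) ha

theorem cop {i : ℕ} (h : ¬ 3 ∣ i) (k : ℕ) : i.Coprime (3 * 3 ^ k) := by
  rw [← pow_succ']
  exact (Nat.prime_three.coprime_iff_not_dvd.2 h).symm.pow_right _

theorem ze_nat (N a : ℕ) : ze N a = ze N 1 ^ a := by rw [P027M.M.ze_zpow, zpow_natCast]

theorem ze_pr {i : ℕ} (h : ¬ 3 ∣ i) (k : ℕ) : IsPrimitiveRoot (ze (3 * 3 ^ k) i) (3 * 3 ^ k) := by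
  rw [ze_nat]
  exact (P027M.M.ze_prim (by positivity)).pow_of_coprime _ (cop h k)

theorem fa {i : ℕ} (h : i ∈ Fa k) : ¬ 3 ∣ i := (Finset.mem_filter.1 h).2

theorem card_fa (k : ℕ) : (Fa k).card = 2 * 3 ^ k := by
  have := Nat.totient_prime_pow_succ Nat.prime_three k
  rw [Nat.totient_eq_card_coprime, pow_succ'] at this
  rw [mul_comm, ← show _ = 3 ^ k * 2 from this, Fa]
  refine congrArg _ (Finset.filter_congr fun i _ => ⟨fun h => (cop h k).symm, fun h => ?_⟩)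
  exact Nat.prime_three.coprime_iff_not_dvd.1 h.coprime_mul_right

theorem pr_unit (h : IsPrimitiveRoot ζ (3 * 3 ^ k)) {a : ZMod (3 * 3 ^ k)} (ha : IsUnit a) :
    IsPrimitiveRoot (ζ ^ a.val) (3 * 3 ^ k) :=
  h.pow_of_coprime _ ((ZMod.isUnit_iff_coprime a.val _).1 (by rwa [ZMod.natCast_zmod_val]))

theorem near (n : IsNonarchimedean V) {lam : ℂ} (u1 : V u = 1) (h : V (lam - 1) < V (u - 1)) :
    V (1 - u * lam) = V (u - 1) := by
  rw [show 1 - u * lam = -(u - 1 + u * (lam - 1)) by ring, V.map_neg,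
    add_eq n (by rwa [map_mul, u1, one_mul])]

/-- small powers of a primitive root -/
theorem sm_pow (n : IsNonarchimedean V) (h3 : V 3 = 1 / 3) (hk : 1 ≤ k)
    (hζ : IsPrimitiveRoot ζ (3 * 3 ^ k)) (hu : IsPrimitiveRoot u (3 * 3 ^ k)) {f : ℕ} (f0 : 0 < f)
    (f8 : f ≤ 8) : V (ζ - 1) ^ 3 ≤ V (u ^ f - 1) ∧ V (u ^ f - 1) < 1 := by
  have a := vz n h3 k ζ hζ
  have a1 := v_lt a
  have a0 := V.nonneg (ζ - 1)
  by_cases d : 3 ∣ f
  · obtain ⟨k, rfl⟩ := Nat.exists_eq_add_of_le' hk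
    obtain ⟨f, rfl⟩ := d
    have b := vz n h3 k _ ((hu.pow_of_coprime f (cop (by omega) _)).pow (a := 3) (by positivity)
      (by ring))
    rw [← pow_mul, mul_comm f] at b
    exact ⟨(v_eq (by positivity) (V.nonneg _) (by rw [← a, ← pow_mul]; congr 1; ring) b).le, v_lt b⟩
  · rw [v_eq (V.nonneg _) a0 (vz n h3 k _ (hu.pow_of_coprime f (cop d k))) a]
    exact ⟨pow_le_of_le_one a0 a1.le three_ne_zero, a1⟩

/-- the numerical part of the Euler factors -/
theorem num (n : IsNonarchimedean V) (h3 : V 3 = 1 / 3) (hk : 1 ≤ k)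
    (hζ : IsPrimitiveRoot ζ (3 * 3 ^ k)) (hu : IsPrimitiveRoot u (3 * 3 ^ k)) {f : ℕ} (f0 : 0 < f)
    (f8 : f ≤ 8) {lam y : ℂ} (hl : V (lam - 1) ≤ 1 / 3) (hy : y = 0 ∨ y ^ 2 = 1) :
    V (ζ - 1) ^ 3 ≤ V (1 - y * (u ^ f * lam)) := by
  obtain ⟨w, w'⟩ := sm_pow n h3 hk hζ hu f0 f8
  have g := v_gt (a := 3) (V.nonneg _) (vz n h3 k ζ hζ) (by
    have := Nat.pow_le_pow_right (n := 3) (by norm_num) hk
    omega)
  have z := near n (u := u ^ f) (by rw [map_pow, rt (by positivity) hu.pow_eq_one, one_pow])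
    (hl.trans_lt (g.trans_le w))
  rcases hy with rfl | hy
  · rw [zero_mul, sub_zero, map_one]
    linarith
  rcases sq_eq_one_iff.1 hy with rfl | rfl
  · rwa [one_mul, z]
  · have t : V (-1 + 3) = 1 := by rw [add_eq n (by rw [h3, V.map_neg, map_one]; norm_num), V.map_neg,
      map_one]
    rw [show 1 - -1 * (u ^ f * lam) = -1 + 3 + -(1 - u ^ f * lam) by ring,
      add_eq n (by rwa [V.map_neg, z, t]), t]
    linarith

end Vale.Agent.P014Y.Tp.Iq
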