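import Vale.Agent.P014Y.Tp.St
import Vale.Agent.P014Y.Tp.Iq
import Vale.Agent.P004C.Tp.Bch
import Vale.Agent.P004F.Ra.Lv

/-! # P014 Y, block TOP: row BCH (helper15) -/

set_option linter.all false

open NumberField

noncomputable section

namespace Vale.Agent.P014Y.Tp

open Vale.Agent.P022 (Qb GQ GK)
open Vale.Agent.P027M.M (ze)
open P004K (RC2 Hc)
open P004C.Tp.Bc (mc_pow bc xi_ic ic_congr ic_pow)
open F (Crv Fld)
open Iq

variable {e : Crv} {b : Fld e} {k c : ℕ} {χ : GQ → ZMod (3 * 3 ^ k)}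

theorem Lz.ker (L : Lz b k c χ) {g : GQ} (m : g ∈ Hc b.j c) : χ g = 0 := by
  have : 3 ^ (k + 1) ∣ (χ g).val := L.ad.ker g m
  rwa [pow_succ', ← ZMod.natCast_eq_zero_iff, ZMod.natCast_zmod_val] at this

theorem Lz.add (L : Lz b k c χ) : ∀ g ∈ b.Γ, ∀ h ∈ b.Γ, χ (g * h) = χ g + χ h := fun g a t d => by
  have : (χ (g * t)).val ≡ (χ g).val + (χ t).val [MOD 3 ^ (k + 1)] := L.ad.add g a t d
  rw [pow_succ', ← ZMod.natCast_eq_natCast_iff] at this
  simpa only [Nat.cast_add, ZMod.natCast_zmod_val] using this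

/-- **BCH** -/
theorem bch (r2 : RC2) : BCH := fun e b M _ _ _ jM em k c χ L W => by
  have p := P027M.M.ze_prim (N := 3 * 3 ^ k) (by positivity)
  have o1 : Fact (1 < 3 * 3 ^ k) := ⟨by have := Nat.one_le_pow k 3 (by norm_num); omega⟩
  have c0 := zero_lt_one.trans L.one
  refine ⟨?_, fun χM ξ i hi h x I => ?_⟩
  · simp only [ze_nat]
    exact ⟨(mc_pow p.pow_eq_one W.add).mul, by positivity,
      fun g _ => by rw [pow_right_comm, p.pow_eq_one, one_pow],
      W.opn.imp fun U u => ⟨u.1, fun g a d => by rw [u.2 g a d, ZMod.val_zero, pow_zero]⟩⟩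
  have co := cop (fa hi) k
  have p' := ze_pr (fa hi) k
  generalize hζ : ze (3 * 3 ^ k) i = ζ at x p'
  rw [ze_nat] at hζ
  have G := mc_pow p'.pow_eq_one L.add
  have ne : ∀ t, χ t = 1 → ζ ^ (χ t).val ≠ 1 := fun t a => by
    rw [a, ZMod.val_one, pow_one]; exact p'.ne_one o1.1
  refine bc em G (xi_ic r2 b.iq c0 G (fun g m => by rw [L.ker m, ZMod.val_zero, pow_zero])
    (fun l P o d => (L.ram l P o d).imp fun t a => ⟨a.1, a.2.1, ne t a.2.2⟩) x)
    (ic_congr (ic_pow h (i := i) (fun z => fa hi (z ▸ dvd_zero 3)) fun g _ z => ?_)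
      fun g _ => by rw [ze_nat, pow_right_comm, hζ]) (fun l P o ⟨t, m, a, n⟩ => ?_) I
  · rw [ze_nat] at z ⊢
    rw [← pow_mul, p.pow_eq_one_iff_dvd] at z
    exact (p.pow_eq_one_iff_dvd _).2 (co.symm.dvd_of_dvd_mul_right z)
  · refine (W.ram l P o (by_contra fun d => n ?_)).imp fun t a => ⟨a.1, a.2.1, ne t a.2.2⟩
    simp only [L.ker (P004F.Ra.unr_hc r2 b.iq c0 o d m a), ZMod.val_zero, pow_zero]

end Vale.Agent.P014Y.Tp
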