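import Vale.Agent.P014Y.Tp.St0

/-!
# P014 Y, block TOP of the anchor at three: the filtration of the odd functions
-/

set_option linter.all false

open Matrix
open scoped Classical

noncomputable section

namespace Vale.Agent.P014Y.Tp

open Vale.Agent.P022 (GQ)
open P004F (Cc)
open P004F.Pr (ac)

namespace Ex

theorem cnt {G H H' : Type} [AddGroup G] [AddGroup H] (A : G → Prop) (B : Set H) (B' : Set H')
    (π : G →+ H) (σ : G → H') (h0 : A 0) (hs : ∀ x y, A x → A y → A (x - y))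
    (hπ : ∀ x, A x → π x ∈ B) (hσ : ∀ x, A x → π x = 0 → σ x ∈ B')
    (inj : ∀ x y, A x → A y → π x = 0 → π y = 0 → σ x = σ y → x = y) [Finite B] [Finite B'] :
    Nat.card {x // A x} ≠ 0 ∧ Nat.card {x // A x} ≤ Nat.card B * Nat.card B' := by
  have e : ∀ b : H, ∃ s, (∃ x, A x ∧ π x = b) → A s ∧ π s = b := fun b => by
    by_cases h : ∃ x, A x ∧ π x = b
    · exact h.imp fun _ k _ => k
    · exact ⟨0, fun k => (h k).elim⟩
  choose s hs' using e
  have k : ∀ x, A x → A (x - s (π x)) ∧ π (x - s (π x)) = 0 := fun x h =>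
    ⟨hs _ _ h (hs' _ ⟨x, h, rfl⟩).1, by rw [map_sub, (hs' _ ⟨x, h, rfl⟩).2, sub_self]⟩
  have i : Function.Injective fun x : {x // A x} => ((⟨π x, hπ _ x.2⟩, ⟨σ (x - s (π x)),
      hσ _ (k _ x.2).1 (k _ x.2).2⟩) : B × B') := fun x y e => by
    have a : π x = π y := congrArg (fun t => t.1.1) e
    have b := inj _ _ (k _ x.2).1 (k _ y.2).1 (k _ x.2).2 (k _ y.2).2 (congrArg (fun t => t.2.1) e)
    rw [a] at b
    exact Subtype.ext (sub_left_injective b)
  have := Finite.of_injective _ i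
  have : Nonempty {x // A x} := ⟨⟨0, h0⟩⟩
  exact ⟨Nat.card_pos.ne', Nat.card_prod B B' ▸ Nat.card_le_card_of_injective _ i⟩

abbrev V3 : Type := Fin 2 → ZMod 3

variable {R : Type} [CommRing R] (c : ZMod 3 →+* R)

/-- the moments -/
def mo (w : ZMod 3 → ZMod 3) : (V3 → ZMod 3 → R) →+ Fin 2 → R where
  toFun f i := ∑ y, ∑ o, c (w o * y i) * f y o
  map_zero' := by ext; simp
  map_add' f f' := by ext; simp [mul_add, Finset.sum_add_distrib]

/-- the vector of a linear form -/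
def ve (w : ZMod 3 → ZMod 3) : (V3 → ZMod 3 → R) →+ Fin 2 → R where
  toFun f := ![-∑ o, c (w o) * f ![0, 1] o, ∑ o, c (w o) * f ![1, 0] o]
  map_zero' := by ext i; fin_cases i <;> simp
  map_add' f f' := by ext i; fin_cases i <;> simp [mul_add, Finset.sum_add_distrib, add_comm]

/-- linear in the vector -/
def Ln (f : V3 → ZMod 3 → R) : Prop := ∀ y o, f y o = c (y 0) * f ![1, 0] o + c (y 1) * f ![0, 1] o

variable {M M' : G3} {w : ZMod 3 → ZMod 3} {t : ZMod 3}

theorem dd (h : M * M' = 1) : M.det * M'.det = 1 := by rw [← det_mul, h, det_one]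

theorem sum_o (h : M * M' = 1) (F : ZMod 3 → ZMod 3 → R) :
    ∑ o, F o (M'.det * o) = ∑ o, F (M.det * o) o :=
  Fintype.sum_equiv (Units.mulLeft (Units.mkOfMulEqOne _ _ ((mul_comm _ _).trans (dd h)))) _ _
    fun o => by simp [← mul_assoc, dd h]

theorem mo_act (h : M * M' = 1) (hw : ∀ o, w (M.det * o) = t * w o) (u : R) (f : V3 → ZMod 3 → R) :
    mo c w (fun y o => u * f (M' *ᵥ y) (M'.det * o)) = ac (u • (t • M).map c) (mo c w f) := by
  ext i
  show ∑ y : V3, ∑ o, c (w o * y i) * (u * f (M' *ᵥ y) (M'.det * o)) = _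
  rw [← Equiv.sum_comp ⟨M.mulVec, M'.mulVec, fun y => by rw [mulVec_mulVec, mul_eq_one_comm.1 h, one_mulVec],
    fun y => by rw [mulVec_mulVec, h, one_mulVec]⟩]
  simp only [Equiv.coe_fn_mk, mulVec_mulVec, mul_eq_one_comm.1 h, one_mulVec]
  simp only [fun y => sum_o h fun o o' => c (w o * (M *ᵥ y) i) * (u * f y o'), hw]
  simp only [ac, mo, mulVec, dotProduct, Fin.sum_univ_two, AddMonoidHom.coe_mk, ZeroHom.coe_mk,
    Finset.mul_sum, ← Finset.sum_add_distrib, smul_eq_mul, Matrix.smul_apply, map_apply, map_mul,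
    map_add]
  exact Finset.sum_congr rfl fun _ _ => Finset.sum_congr rfl fun _ _ => by ring

theorem adj : ∀ M M' : G3, M * M' = 1 → M' 0 0 = M.det * M 1 1 ∧ M' 0 1 = -(M.det * M 0 1) ∧
    M' 1 0 = -(M.det * M 1 0) ∧ M' 1 1 = M.det * M 0 0 := fun M M' h => by
  have a := dd h
  have b : ∀ x y : ZMod 3, x * y = 1 → x * x = 1 := by decide
  have d := b _ _ a
  have e := fun i j => congrFun (congrFun h i) j
  have e0 := e 0 0
  have e1 := e 0 1
  have e2 := e 1 0
  have e3 := e 1 1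
  simp only [mul_apply, Fin.sum_univ_two, one_apply_eq, one_apply_ne, ne_eq, zero_ne_one,
    one_ne_zero, not_false_eq_true] at e0 e1 e2 e3
  have k := det_fin_two M
  refine ⟨?_, ?_, ?_, ?_⟩
  · linear_combination M.det * (M 1 1 * e0 - M 0 1 * e2) - M' 0 0 * d + M.det * M' 0 0 * k
  · linear_combination M.det * (M 1 1 * e1 - M 0 1 * e3) - M' 0 1 * d + M.det * M' 0 1 * k
  · linear_combination M.det * (M 0 0 * e2 - M 1 0 * e0) - M' 1 0 * d + M.det * M' 1 0 * k
  · linear_combination M.det * (M 0 0 * e3 - M 1 0 * e1) - M' 1 1 * d + M.det * M' 1 1 * k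

theorem ve_act (h : M * M' = 1) (hw : ∀ o, M.det * w (M.det * o) = t * w o) (u : R)
    {f : V3 → ZMod 3 → R} (l : Ln c f) :
    ve c w (fun y o => u * f (M' *ᵥ y) (M'.det * o)) = ac (u • (t • M).map c) (ve c w f) := by
  obtain ⟨a0, a1, a2, a3⟩ := adj M M' h
  have hw' := fun o => congrArg c (hw o)
  simp only [map_mul] at hw'
  have s := fun y => sum_o h fun o o' => c (w o) * (u * f y o')
  ext i
  simp only [ve, AddMonoidHom.coe_mk, ZeroHom.coe_mk, s]
  fin_cases i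
  all_goals
    simp only [ac, Fin.sum_univ_two, Matrix.smul_apply,
      map_apply, smul_eq_mul, Fin.zero_eta, Fin.mk_one, cons_val_zero, cons_val_one,
      mul_neg, Finset.mul_sum, ← Finset.sum_neg_distrib, ← Finset.sum_add_distrib, map_mul]
    refine Finset.sum_congr rfl fun o _ => ?_
    rw [l (M' *ᵥ _)]
    simp only [mulVec, dotProduct, Fin.sum_univ_two, cons_val_zero, cons_val_one, mul_zero, mul_one,
      zero_add, add_zero, a0, a1, a2, a3, map_mul, map_neg]
  · linear_combination (u * c (M 0 1) * f ![1, 0] o - u * c (M 0 0) * f ![0, 1] o) * hw' o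
  · linear_combination (u * c (M 1 1) * f ![1, 0] o - u * c (M 1 0) * f ![0, 1] o) * hw' o

theorem s3 (F : ZMod 3 → R) : ∑ o, F o = F 0 + F 1 + F (-1) := Fin.sum_univ_three F

theorem sv (F : V3 → R) : ∑ y, F y = ∑ a, ∑ b, F ![a, b] := by
  rw [← Fintype.sum_prod_type', ← (finTwoArrowEquiv (ZMod 3)).symm.sum_comp]; rfl

include c in
theorem three : (3 : R) = 0 := by
  have : (3 : ZMod 3) = 0 := rfl
  simpa [this] using (map_ofNat c 3).symm

theorem sep {a : ZMod 3 → R} (z : a 0 = 0) (h : ∑ o, c 1 * a o = 0) (h' : ∑ o, c o * a o = 0) (o) :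
    a o = 0 := by
  simp only [s3, map_one, map_zero, map_neg] at h h'
  have : o = 0 ∨ o = 1 ∨ o = -1 := by revert o; decide
  rcases this with rfl | rfl | rfl
  · exact z
  · linear_combination -h - h' + a 1 * three c + z
  · linear_combination -h + h' + a (-1) * three c + z

theorem ln {f : V3 → ZMod 3 → R} (od : ∀ y o, f (-y) o = -f y o) (z : ∀ y, f y 0 = 0)
    (h : mo c (fun _ => 1) f = 0) (h' : mo c id f = 0) : Ln c f := fun y o => by
  have k : ∀ i, ∑ y, c (y i) * f y o = 0 := fun i => sep c (a := fun o => ∑ y, c (y i) * f y o)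
    (by simp [z]) (by
      simpa [mo, Finset.mul_sum, Finset.sum_comm (s := (Finset.univ : Finset V3))] using congrFun h i)
    (by simpa [mo, Finset.mul_sum, Finset.sum_comm (s := (Finset.univ : Finset V3)), mul_assoc]
      using congrFun h' i) o
  have k0 := k 0
  have k1 := k 1
  have n : ∀ a b : ZMod 3, f ![-a, -b] o = -f ![a, b] o := fun a b => by rw [← od]; simp
  have n0 := n 0 0
  have n1 := n 1 0
  have n2 := n 0 1
  have n3 := n 1 1
  have n4 := n 1 (-1)
  have t := three c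
  simp only [sv, s3, cons_val_zero, cons_val_one, map_one, map_zero, map_neg, neg_zero,
    neg_neg] at k0 k1 n0 n1 n2 n3 n4
  have e : y = ![y 0, y 1] := by ext i; fin_cases i <;> rfl
  have q : ∀ x : ZMod 3, x = 0 ∨ x = 1 ∨ x = -1 := by decide
  rw [e]
  rcases q (y 0) with a | a | a <;> rcases q (y 1) with b | b | b <;>
    simp only [a, b, cons_val_zero, cons_val_one, map_one, map_zero, map_neg]
  · linear_combination -n0 + f ![0, 0] o * t
  · ring
  · linear_combination n2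
  · ring
  · linear_combination k0 + k1 + n1 + n2 + 2 * n3 - (f ![1, 1] o + f ![1, 0] o + f ![0, 1] o) * t
  · linear_combination k0 - k1 + n1 - n2 + 2 * n4 - (f ![1, -1] o + f ![1, 0] o - f ![0, 1] o) * t
  · linear_combination n1
  · linear_combination -k0 + k1 - n1 + n2 - n4 + (f ![1, -1] o + f ![1, 0] o - f ![0, 1] o) * t
  · linear_combination -k0 - k1 - n1 - n2 - n3 + (f ![1, 1] o + f ![1, 0] o + f ![0, 1] o) * t

theorem ve_inj {f : V3 → ZMod 3 → R} (l : Ln c f) (z : ∀ y, f y 0 = 0)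
    (h : ve c (fun _ => 1) f = 0) (h' : ve c id f = 0) : f = 0 := by
  ext y o
  rw [l, sep c (z _) (congrFun h 1) (congrFun h' 1),
    sep c (z _) (neg_eq_zero.1 (congrFun h 0)) (neg_eq_zero.1 (congrFun h' 0))]
  simp

variable {ρ : GQ → G3} {Γ : Subgroup GQ} {T : Finset ℕ} {N : ℕ} {χ : GQ → ℕ}
  {P : Ideal (NumberField.RingOfIntegers P022.Qb)} {z z' : GQ → V3 → ZMod 3 → Rb N}

theorem sub (p : Z8 Γ T ρ N χ P z) (q : Z8 Γ T ρ N χ P z') : Z8 Γ T ρ N χ P (z - z') :=
  ⟨fun g y o => by simp only [Pi.sub_apply, p.odd, q.odd]; ring,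
    fun g y => by simp [p.zero, q.zero],
    fun g m h n y o => by simp only [Pi.sub_apply, p.coc g m h n, q.coc g m h n]; ring,
    fun g m => by simp [p.off g m, q.off g m], by
      obtain ⟨W, o, k⟩ := p.lc
      obtain ⟨W', o', k'⟩ := q.lc
      exact ⟨W ⊓ W', o.inter o', fun w m => by simp [k w m.1, k' w m.2]⟩,
    fun g m => by simp [p.unr g m, q.unr g m], fun g m => by simp [p.loc g m, q.loc g m]⟩

theorem zc (p : Z8 Γ T ρ N χ P z) (φ : (V3 → ZMod 3 → Rb N) →+ Fin 2 → Rb N) {ρ' : GQ → G3}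
    (h : ∀ g k, φ (fun y o => uu N χ g * z k (ρ g⁻¹ *ᵥ y) ((ρ g⁻¹).det * o)) =
      ac (uu N χ g • (ρ' g).map (c3 N)) (φ (z k))) : (fun g => φ (z g)) ∈ Zc Γ T ρ' N χ P :=
  ⟨⟨fun g m k n => by
      rw [← h, ← map_add]
      exact congrArg φ (funext fun y => funext fun o => p.coc g m k n y o),
    fun g m => by simp [p.off g m], p.lc.imp fun W k => ⟨k.1, fun w m => by simp [k.2 w m]⟩,
    fun g m => by simp [p.unr g m]⟩, fun g m => by simp [p.loc g m]⟩

/-- two maps, value by value -/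
def p2 {A B : Type} [AddCommGroup A] [AddCommGroup B] (φ ψ : A →+ B) :
    (GQ → A) →+ (GQ → B) × (GQ → B) where
  toFun z := (fun g => φ (z g), fun g => ψ (z g))
  map_zero' := by ext <;> simp
  map_add' _ _ := by ext <;> simp

theorem p2_zero {A B : Type} [AddCommGroup A] [AddCommGroup B] {φ ψ : A →+ B} {z : GQ → A}
    (h : p2 φ ψ z = 0) (g : GQ) : φ (z g) = 0 ∧ ψ (z g) = 0 :=
  ⟨congrFun (congrArg Prod.fst h) g, congrFun (congrArg Prod.snd h) g⟩

theorem lz (p : Z8 Γ T ρ N χ P z) (e : p2 (mo (c3 N) fun _ => 1) (mo (c3 N) id) z = 0) (g : GQ) :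
    Ln (c3 N) (z g) := ln _ (p.odd g) (p.zero g) (p2_zero e g).1 (p2_zero e g).2

theorem m1 (iv : ∀ g, ρ g * ρ g⁻¹ = 1) (p : Z8 Γ T ρ N χ P z) :
    p2 (mo (c3 N) fun _ => 1) (mo (c3 N) id) z ∈ Zc Γ T ρ N χ P ×ˢ Zc Γ T (tw ρ) N χ P := by
  refine Set.mem_prod.2 ⟨zc p (mo (c3 N) fun _ => 1) fun g k => ?_, zc p (mo (c3 N) id) fun g k => ?_⟩
  · simpa only [one_smul] using mo_act (c3 N) (w := fun _ => 1) (t := 1) (iv g) (fun _ => rfl) _ (z k)
  · exact mo_act (c3 N) (w := id) (t := (ρ g).det) (iv g) (fun _ => rfl) _ (z k)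

theorem m2 (iv : ∀ g, ρ g * ρ g⁻¹ = 1) (p : Z8 Γ T ρ N χ P z) (l : ∀ g, Ln (c3 N) (z g)) :
    p2 (ve (c3 N) id) (ve (c3 N) fun _ => 1) z ∈ Zc Γ T ρ N χ P ×ˢ Zc Γ T (tw ρ) N χ P := by
  have b : ∀ x y : ZMod 3, x * y = 1 → x * x = 1 := by decide
  refine Set.mem_prod.2 ⟨zc p (ve (c3 N) id) fun g k => ?_, zc p (ve (c3 N) fun _ => 1) fun g k => ?_⟩
  · simpa only [one_smul] using ve_act (c3 N) (w := id) (t := 1) (iv g)
      (fun o => by rw [id, ← mul_assoc, b _ _ (dd (iv g))]; rfl) _ (l k)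
  · exact ve_act (c3 N) (w := fun _ => 1) (t := (ρ g).det) (iv g) (fun _ => rfl) _ (l k)

end Ex

open Ex

theorem exa : EXA := by
  intro ρ S r Γ T N χ P h h'
  have := Nat.finite_of_card_ne_zero h
  have := Nat.finite_of_card_ne_zero h'
  have iv : ∀ g, ρ g * ρ g⁻¹ = 1 := fun g => by rw [← r.mul, mul_inv_cancel, r.one]
  have := cnt (Z8 Γ T ρ N χ P) _ _ (p2 (mo (c3 N) fun _ => 1) (mo (c3 N) id))
    (p2 (ve (c3 N) id) (ve (c3 N) fun _ => 1))
    ⟨by simp, by simp, by simp, by simp, ⟨⊤, isOpen_univ, by simp⟩, by simp, by simp⟩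
    (fun _ _ => sub) (fun z => m1 iv) (fun z p e => m2 iv p (lz p e))
    fun x y p q e e' k => sub_eq_zero.1 (funext fun g => by
      have k := sub_eq_zero.2 k
      rw [← map_sub] at k
      exact ve_inj _ (lz (sub p q) (by rw [map_sub, e, e', sub_self]) g) ((sub p q).zero g)
        (p2_zero k g).2 (p2_zero k g).1)
  rwa [Nat.card_congr (Equiv.Set.prod _ _), Nat.card_prod, ← sq] at this

end Vale.Agent.P014Y.Tp
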