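import Vale.Agent.P014Y.Tp.St0
import Vale.Agent.P004R.Gl
import Vale.Agent.P022E.GW.Hyp

/-!
# P014 Y, block TOP: the fields of the orbits of lines
-/

set_option linter.all false

open NumberField Module Matrix
open scoped Classical

noncomputable section

namespace Vale.Agent.P014Y.Tp

open Vale.Agent.P022 Vale.Agent.P022.H916
open Vale.Agent.P027M.M (ze)
open P004C.Al (Gc)
open P004R.Gl (ex_hom ndisc)

namespace Fm

abbrev V3 : Type := Fin 2 → ZMod 3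

variable {ρ : GQ → G3} {S : Finset ℕ} {g : GQ} {x y : V3} {a b : G3}

/-- the representation as a homomorphism -/
def hom (h : Rh ρ S) : GQ →* G3 := ⟨⟨ρ, h.one⟩, h.mul⟩

theorem inv (h : Rh ρ S) (g : GQ) : ρ g⁻¹ * ρ g = 1 := by rw [← h.mul, inv_mul_cancel, h.one]

theorem inv' (h : Rh ρ S) (g : GQ) : ρ g * ρ g⁻¹ = 1 := by rw [← h.mul, mul_inv_cancel, h.one]

theorem vi (h : Rh ρ S) (g : GQ) (y : V3) : ρ g⁻¹ *ᵥ ρ g *ᵥ y = y := by
  rw [mulVec_mulVec, inv h, one_mulVec]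

theorem vi' (h : Rh ρ S) (g : GQ) (y : V3) : ρ g *ᵥ ρ g⁻¹ *ᵥ y = y := by
  rw [mulVec_mulVec, inv' h, one_mulVec]

theorem di (h : Rh ρ S) (g : GQ) : (ρ g⁻¹).det * (ρ g).det = 1 := by rw [← det_mul, inv h, det_one]

theorem v0 (h : Rh ρ S) (g : GQ) (k : y ≠ 0) : ρ g *ᵥ y ≠ 0 := fun e =>
  k (by rw [← vi h g y, e, mulVec_zero])

theorem d0 (h : Rh ρ S) (g : GQ) : (ρ g).det ≠ 0 := right_ne_zero_of_mul_eq_one (di h g)

/-- equal up to sign -/
def Pm (x y : V3) : Prop := x = y ∨ x = -y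

theorem Pm.symm (k : Pm x y) : Pm y x := k.imp Eq.symm fun e => by rw [e, neg_neg]

theorem Pm.trans {z : V3} (k : Pm x y) (l : Pm y z) : Pm x z := by
  rcases k with rfl | rfl <;> rcases l with rfl | rfl <;> simp [Pm]

theorem Pm.map (k : Pm x y) (a : G3) : Pm (a *ᵥ x) (a *ᵥ y) :=
  k.imp (congrArg _) fun e => by rw [e, mulVec_neg]

/-- in the same orbit -/
def Or (ρ : GQ → G3) (x y : V3) : Prop := ∃ g, (ρ g).det = 1 ∧ Pm (ρ g *ᵥ x) y

theorem mv (h : Rh ρ S) {g g' : GQ} {z : V3} (k : Pm (ρ g *ᵥ x) y) (l : Pm (ρ g' *ᵥ y) z) :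
    Pm (ρ (g' * g) *ᵥ x) z := by
  rw [h.mul, ← mulVec_mulVec]
  exact (k.map _).trans l

theorem iv (h : Rh ρ S) (k : Pm (ρ g *ᵥ x) y) : Pm (ρ g⁻¹ *ᵥ y) x := by
  have := (k.map (ρ g⁻¹)).symm
  rwa [vi h] at this

theorem d1 (h : Rh ρ S) (k : (ρ g).det = 1) : (ρ g⁻¹).det = 1 := by
  have := di h g
  rwa [k, mul_one] at this

theorem or1 (h : Rh ρ S) (k : Pm x y) : Or ρ x y := ⟨1, by rw [h.one, det_one], by rwa [h.one, one_mulVec]⟩

/-- the orbits -/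
def st (h : Rh ρ S) : Setoid {y : V3 // y ≠ 0} :=
  ⟨fun x y => Or ρ x.1 y.1, fun _ => or1 h (.inl rfl), fun ⟨g, d, k⟩ => ⟨g⁻¹, d1 h d, iv h k⟩,
    fun ⟨g, d, k⟩ ⟨g', d', k'⟩ => ⟨g' * g, by rw [h.mul, det_mul, d, d', one_mul], mv h k k'⟩⟩

/-- the group of a line -/
def SG (h : Rh ρ S) (x : V3) : Subgroup GQ where
  carrier := {g | Sb x (ρ g)}
  mul_mem' {a b} p q := ⟨by rw [h.mul, det_mul, p.1, q.1, one_mul], mv h q.2 p.2⟩
  one_mem' := ⟨by rw [h.one, det_one], .inl (by rw [h.one, one_mulVec])⟩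
  inv_mem' p := ⟨d1 h p.1, iv h p.2⟩

theorem ker_le (h : Rh ρ S) (x : V3) : (hom h).ker ≤ SG h x := fun g (k : ρ g = 1) =>
  show Sb x (ρ g) from ⟨by rw [k, det_one], .inl (by rw [k, one_mulVec])⟩

theorem ker_open (h : Rh ρ S) : IsOpen ((hom h).ker : Set GQ) :=
  let ⟨W, o, k⟩ := h.opn
  Subgroup.isOpen_mono (H₁ := W) (fun g m => k g m) o

theorem index_GK {K : Type} [Field K] [NumberField K] (j : K →+* Qb) :
    (GK j).index = finrank ℚ K := by
  have := isGalois_Qb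
  have e : GK j = (j.toRatAlgHom.fieldRange).fixingSubgroup := by
    ext g
    rw [IntermediateField.mem_fixingSubgroup_iff]
    exact ⟨fun h _ ⟨x, hx⟩ => hx ▸ h x, fun h x => h _ ⟨x, rfl⟩⟩
  rw [e, ← IntermediateField.finrank_eq_fixingSubgroup_index]
  exact (AlgEquiv.ofInjectiveField j.toRatAlgHom).toLinearEquiv.finrank_eq.symm

set_option synthInstance.maxSize 4096 in
theorem tab : ∀ x y : ZMod 3, ¬ (x = 0 ∧ y = 0) → ∀ a b c d : ZMod 3, a * d - b * c = 1 →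
    (a * x + b * y = x ∧ c * x + d * y = y) ∨ (a * x + b * y = -x ∧ c * x + d * y = -y) →
    -(a + d) ≠ 0 ∧ ∀ a' b' c' d' : ZMod 3, a' * d' - b' * c' = 1 →
    (a' * x + b' * y = x ∧ c' * x + d' * y = y) ∨ (a' * x + b' * y = -x ∧ c' * x + d' * y = -y) →
    -(a * a' + b * c' + (c * b' + d * d')) = -(a + d) * -(a' + d') ∧
    -(a * a' + b * c' + (c * b' + d * d')) *
      (if a * b' + b * d' = 0 then -(c * a' + d * c') else a * b' + b * d') =
      -(a + d) * (if b = 0 then -c else b) + -(a' + d') * (if b' = 0 then -c' else b') := by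
  decide +kernel

theorem sb_mul (k : x ≠ 0) (p : Sb x a) : sg a ≠ 0 ∧ ∀ b, Sb x b →
    sg (a * b) = sg a * sg b ∧ un (a * b) = un a + un b := by
  have e (a : G3) (p : Sb x a) : a 0 0 * a 1 1 - a 0 1 * a 1 0 = 1 ∧
      ((a 0 0 * x 0 + a 0 1 * x 1 = x 0 ∧ a 1 0 * x 0 + a 1 1 * x 1 = x 1) ∨
      (a 0 0 * x 0 + a 0 1 * x 1 = -x 0 ∧ a 1 0 * x 0 + a 1 1 * x 1 = -x 1)) := by
    simpa only [Sb, det_fin_two, funext_iff, Fin.forall_fin_two, mulVec, dotProduct,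
      Fin.sum_univ_two, Pi.neg_apply] using p
  have := tab (x 0) (x 1) (fun z => k (funext (Fin.forall_fin_two.2 z))) _ _ _ _ (e a p).1 (e a p).2
  simp only [un, sg, trace_fin_two, mul_apply, Fin.sum_univ_two]
  refine ⟨this.1, fun b q => ?_⟩
  convert this.2 _ _ _ _ (e b q).1 (e b q).2

theorem vm : ∀ a b : ZMod 3, (a * b).valMinAbs = a.valMinAbs * b.valMinAbs ∧
    (a ≠ 0 → a.valMinAbs ^ 2 = 1) := by decide +kernel

theorem ze3 (n : ℕ) : ze 3 n = ze 3 1 ^ n := by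
  rw [ze, ze, ← Complex.exp_nat_mul]
  congr 1
  push_cast
  ring

theorem ze33 : ze 3 1 ^ 3 = 1 := by
  rw [← ze3, ze]
  convert Complex.exp_two_pi_mul_I using 2
  push_cast
  ring

theorem th_mul (k : x ≠ 0) (p : Sb x a) (q : Sb x b) (n : ℕ) : th n (a * b) = th n a * th n b := by
  obtain ⟨u, v⟩ := (sb_mul k p).2 b q
  simp only [th, ze3, u, v, (vm _ _).1, Int.cast_mul, mul_comm n, pow_mul]
  rw [ZMod.val_add, ← pow_eq_pow_mod _ ze33, pow_add, mul_pow]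
  ring

theorem sg_sq (k : x ≠ 0) (p : Sb x a) : ((sg a).valMinAbs : ℂ) ^ 2 = 1 := by
  exact_mod_cast (vm _ 0).2 (sb_mul k p).1

theorem th_one (n : ℕ) : th n 1 = 1 := by
  have a : sg 1 = 1 := by rw [sg, trace_fin_two]; decide
  have b : un 1 = 0 := by simp [un]
  rw [th, a, b, ze3]
  simp
  rfl

theorem ex_w : ∃ w : Qb, w ^ 2 + w + 1 = 0 := by
  obtain ⟨w, e⟩ := IsAlgClosed.exists_pow_nat_eq (-3 : Qb) two_pos
  exact ⟨(w - 1) / 2, by linear_combination e / 4⟩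

theorem ex_det (h : Rh ρ S) (o : ZMod 3) (k : o ≠ 0) : ∃ g, (ρ g).det = o := by
  by_contra! n
  have t : ∀ o d : ZMod 3, o ≠ 0 → 1 ≠ o → d ≠ o → d ≠ 0 → d = 1 := by decide
  have n1 := n 1
  rw [h.one, det_one] at n1
  obtain ⟨w, e⟩ := ex_w
  obtain ⟨q, hq⟩ := fixed (algebraMap ℚ Qb) (x := w) fun ⟨g, _⟩ => by
    rw [h.cyc g w (by linear_combination (w - 1) * e), t o _ k n1 (n g) (d0 h g)]
    exact pow_one w
  have : q ^ 2 + q + 1 = 0 := (algebraMap ℚ Qb).injective (by rw [map_add, map_add, map_pow, hq, map_one, e, map_zero])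
  nlinarith [sq_nonneg (2 * q + 1)]

/-- the line of a vector -/
def ln (y : V3) : Option (ZMod 3) := if y 0 = 0 then none else some (y 0 * y 1)

theorem ln_iff : ∀ x y : V3, x ≠ 0 → y ≠ 0 → (ln x = ln y ↔ x = y ∨ x = -y) := by decide +kernel

theorem ln_sur : ∀ l, ∃ y, y ≠ 0 ∧ ln y = l := by decide +kernel

theorem sum8 (h : Rh ρ S) {κ : Type} [Fintype κ] {x : κ → V3} (ne : ∀ i, x i ≠ 0)
    (ex : ∀ y, y ≠ 0 → ∃! i, Or ρ (x i) y) : ∑ i, (SG h (x i)).index = 8 := by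
  have w (i) (g g' : GQ) (k : g⁻¹ * g' ∈ SG h (x i)) :
      ln (ρ g *ᵥ x i) = ln (ρ g' *ᵥ x i) ∧ (ρ g).det = (ρ g').det := by
    rw [← mul_inv_cancel_left g g']
    exact ⟨(ln_iff _ _ (v0 h _ (ne i)) (v0 h _ (ne i))).2 (Pm.symm (mv h k.2 (.inl rfl))),
      by rw [h.mul g, det_mul, k.1, mul_one]⟩
  let F : (Σ i, GQ ⧸ SG h (x i)) → Option (ZMod 3) × {o : ZMod 3 // o ≠ 0} := fun z =>
    Quotient.liftOn' z.2 (fun g => (ln (ρ g *ᵥ x z.1), ⟨(ρ g).det, d0 h g⟩)) fun g g' k =>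
      have := w _ g g' (QuotientGroup.leftRel_apply.1 k)
      Prod.ext this.1 (Subtype.ext this.2)
  have bi : Function.Bijective F := by
    constructor
    · rintro ⟨i, ⟨g⟩⟩ ⟨i', ⟨g'⟩⟩ e
      have e1 : Pm _ _ := (ln_iff _ _ (v0 h g (ne i)) (v0 h g' (ne i'))).1 (congrArg Prod.fst e)
      have e2 : (ρ g).det = (ρ g').det := congrArg (fun z => z.2.1) e
      have p : Pm (ρ (g⁻¹ * g') *ᵥ x i') (x i) := mv h e1.symm (.inl (vi h g _))
      have d : (ρ (g⁻¹ * g')).det = 1 := by rw [h.mul, det_mul, ← e2, di h]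
      obtain rfl := (ex _ (ne i)).unique (or1 h (.inl rfl)) ⟨_, d, p⟩
      exact congrArg _ (QuotientGroup.eq.2 ⟨d, p⟩)
    · rintro ⟨l, o, k⟩
      obtain ⟨y, y0, rfl⟩ := ln_sur l
      obtain ⟨c, rfl⟩ := ex_det h o k
      obtain ⟨i, ⟨g, d, p⟩, -⟩ := ex _ (v0 h c⁻¹ y0)
      exact ⟨⟨i, (c * g : GQ)⟩, Prod.ext ((ln_iff _ _ (v0 h _ (ne i)) y0).2
        (mv h p (.inl (vi' h c y)))) (Subtype.ext (by
          show (ρ (c * g)).det = _
          rw [h.mul, det_mul, d, mul_one]))⟩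
  have fi (i) : Finite (GQ ⧸ SG h (x i)) :=
    .of_injective (fun q => F ⟨i, q⟩) (bi.1.comp sigma_mk_injective)
  have := Nat.card_eq_of_bijective F bi
  rw [Nat.card_sigma] at this
  refine this.trans ?_
  rw [Nat.card_eq_fintype_card]
  decide +kernel

theorem rel (h : Rh ρ S) {H K : Subgroup GQ} (le : (hom h).ker ≤ H) (im : ∀ g, ∃ k ∈ K, ρ k = ρ g) :
    (K ⊓ H).index = H.index * K.index := by
  let φ := (hom h).toHomUnits
  have e : (H.map φ).comap φ = H := Subgroup.comap_map_eq_self fun g k => le (Units.ext_iff.1 k)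
  have t : K.map φ = (⊤ : Subgroup GQ).map φ := le_antisymm (Subgroup.map_mono le_top) (by
    rintro _ ⟨g, -, rfl⟩
    obtain ⟨k, m, e⟩ := im g
    exact ⟨k, m, Units.ext e⟩)
  rw [← Subgroup.relIndex_mul_index (inf_le_left : K ⊓ H ≤ K), Subgroup.inf_relIndex_left,
    ← Subgroup.relIndex_top_right H, ← e, Subgroup.relIndex_comap, Subgroup.relIndex_comap, t]

end Fm

open Fm

/-- **FAM** -/
theorem fam : FAM := by
  refine ⟨fun ρ S h => ?_, fun K L _ _ _ _ j jL => ?_⟩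
  · choose L a b jL e using fun i : Quotient (st h) => P022E.GW.Hy.ex_fld (U := SG h i.out.1)
      (Subgroup.isOpen_mono (ker_le h _) (ker_open h))
    refine ⟨_, Fintype.ofFinite _, fun i => i.out.1, L, a, b, jL, fun i => i.out.2,
      fun i g => by rw [e]; rfl, fun y k => ⟨⟦⟨y, k⟩⟧, ?_, fun i p => ?_⟩⟩
    · exact Quotient.mk_out (s := st h) ⟨y, k⟩
    · rw [← i.out_eq]
      exact Quotient.sound p
  · obtain ⟨M, a, b, jM, e⟩ := P022E.GW.Hy.ex_fld (U := GK j ⊓ GK jL)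
      ((isOpen_GK j).inter (isOpen_GK jL))
    obtain ⟨u, hu⟩ := ex_hom (j := j) (jL := jM) (e.le.trans inf_le_left)
    obtain ⟨v, hv⟩ := ex_hom (j := jL) (jL := jM) (e.le.trans inf_le_right)
    exact ⟨M, a, b, u.toAlgebra, v.toAlgebra, jM, @Cp.mk _ _ _ _ _ _ u.toAlgebra v.toAlgebra _ _ _
      hu hv fun g => by rw [e]; rfl⟩

theorem Rh.tw {ρ S} (h : Rh ρ S) : Rh (tw ρ) S where
  one := by rw [Tp.tw, h.one, det_one, one_smul]
  mul g k := by rw [Tp.tw, Tp.tw, Tp.tw, h.mul, det_mul, smul_mul_smul_comm]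
  opn := h.opn.imp fun W k => ⟨k.1, fun g m => by rw [Tp.tw, k.2 g m, det_one, one_smul]⟩
  unr g m := by rw [Tp.tw, h.unr g m, det_one, one_smul]
  cyc g w k := by
    rw [Tp.tw, det_smul, Fintype.card_fin, ← pow_succ, ZMod.pow_card]
    exact h.cyc g w k
  pr := h.pr
  two := h.two
  three := h.three

/-- **FAP** -/
theorem fap : FAP := by
  refine fun ρ S h => ⟨h.tw, fun κ _ x L _ _ jL F => ?_⟩
  have e (i) : GK (jL i) = SG h (x i) := Subgroup.ext (F.gL i)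
  refine ⟨?_, ?_, fun i => ?_⟩
  · refine (Fintype.card_le_of_injective (fun i => ln (x i)) fun i i' k => ?_).trans (by simp)
    exact (F.ex _ (F.ne i')).unique (or1 h ((ln_iff _ _ (F.ne i) (F.ne i')).1 k)) (or1 h (.inl rfl))
  · simp only [← index_GK (jL _), e]
    exact sum8 h F.ne F.ex
  have hw : ∃ w : L i, w ^ 2 + w + 1 = 0 := by
    obtain ⟨w, k⟩ := ex_w
    obtain ⟨y, hy⟩ := fixed (jL i) (x := w) fun ⟨g, m⟩ => by
      rw [h.cyc g w (by linear_combination (w - 1) * k), ((F.gL i g).1 m).1]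
      exact pow_one w
    exact ⟨y, (jL i).injective (by simpa [hy] using k)⟩
  have s := fun g m => (F.gL i g).1 m
  have gc (n m : ℕ) (m0 : 0 < m) (p : ∀ g ∈ GK (jL i), th n (ρ g) ^ m = 1) :
      Gc (jL i) (fun g => th n (ρ g)) m :=
    ⟨fun g a k b => by rw [h.mul, th_mul (F.ne i) (s g a) (s k b)], m0, p,
      h.opn.imp fun W k => ⟨k.1, fun g _ m => by rw [k.2 g m, th_one]⟩⟩
  refine ⟨hw, ⟨fun v => InfinitePlace.not_isReal_iff_isComplex.1 fun r => ?_⟩,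
    fun n => gc n 6 (by norm_num) fun g m => ?_, gc 0 2 two_pos fun g m => ?_,
    fun g m => ⟨(sb_mul (F.ne i) (s g m)).1, fun k b => by
      rw [h.mul, ((sb_mul (F.ne i) (s g m)).2 _ (s k b)).1]⟩, fun l hl d => ?_,
    fun K M _ _ _ _ _ _ j jM im C => ?_⟩
  · obtain ⟨w, k⟩ := hw
    have := congrArg (InfinitePlace.embedding_of_isReal r) k
    simp only [map_add, map_pow, map_one, map_zero] at this
    nlinarith [sq_nonneg (2 * InfinitePlace.embedding_of_isReal r w + 1)]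
  · rw [th, ze3, mul_pow, ← pow_mul, mul_comm _ 6, show 6 = 2 * 3 from rfl, pow_mul,
      sg_sq (F.ne i) (s g m), mul_comm 2, mul_assoc, pow_mul, ze33]
    simp
  · rw [th, ze3, zero_mul, pow_zero, mul_one, sg_sq (F.ne i) (s g m)]
  · by_contra n
    obtain ⟨A, _, _, jA, eA⟩ := P022E.GW.Hy.ex_fld (ker_open h)
    obtain ⟨u, -⟩ := ex_hom (j := jL i) (jL := jA) (by rw [eA, e]; exact ker_le h _)
    obtain ⟨P, hP, lP⟩ := exists_prime hl
    let _ := u.toAlgebra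
    exact ndisc (jL := jA) (eA ▸ inferInstance) hP hl lP (fun g k => eA ▸
      h.unr g ⟨l, by simpa using n, P, ⟨hl, hP, lP⟩, k⟩) (d.trans (discr_dvd_discr _ _))
  · have r := rel h (ker_le h (x i)) im
    rw [← e, ← show GK jM = GK j ⊓ GK (jL i) from Subgroup.ext C.gM, index_GK, index_GK, index_GK] at r
    exact ⟨Nat.eq_of_mul_eq_mul_left finrank_pos
      ((finrank_mul_finrank ℚ K M).trans (r.trans (mul_comm _ _))),
      Nat.eq_of_mul_eq_mul_left finrank_pos ((finrank_mul_finrank ℚ (L i) M).trans r)⟩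

end Vale.Agent.P014Y.Tp
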