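import Vale.Agent.P014Y.Tp.St
import Vale.Agent.P014Y.Tp.Fam
import Vale.Agent.P014Y.Tp.Iq
import Mathlib.LinearAlgebra.Matrix.GeneralLinearGroup.Card

/-!
# P014 Y, top: the row `LAY`
-/

set_option linter.all false

open NumberField Module
open scoped Classical

noncomputable section

namespace Vale.Agent.P014Y.Tp

open Vale.Agent.P022 Vale.Agent.P022K
open Vale.Agent.P027M.S (Inert)
open Vale.Agent.P027M.M (ze)
open Vale.Agent.P022D.W (dec)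
open Vale.Agent.P022E.GW (Ov Fb)
open Vale.Agent.P004K (RC1 RC2 Cop Ar Hc)
open P004C.Ln (Jc Xi)
open C (La)
open F (Crv Fld)
open Ln (Pl V3 Lay tS IOT LVX)

namespace Ly

variable {e : Crv} {b : Fld e} {k c : ℕ} {χ : GQ → ZMod (3 * 3 ^ k)} {ι : ℂ →+* ℂ_[3]}
  {V : AbsoluteValue ℂ ℝ} {ρ : GQ → G3} {S : Finset ℕ}

theorem ex_pow (R : Type) [CommRing R] [IsDedekindDomain R] [Finite (ClassGroup R)] :
    ∃ h : ℕ, h ≠ 0 ∧ ∀ I : Ideal R, I ≠ ⊥ → ∃ π, I ^ h = Ideal.span {π} :=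
  ⟨Nat.card (ClassGroup R), Nat.card_pos.ne', fun I n => by
    have := map_pow ClassGroup.mk0 ⟨I, mem_nonZeroDivisors_of_ne_zero n⟩ (Nat.card (ClassGroup R))
    rw [pow_card_eq_one'] at this
    exact ((ClassGroup.mk0_eq_one_iff _).1 this).1⟩

theorem ex_la {K : Type} [Field K] [NumberField K] (J : K →+* ℂ) :
    ∃ h, 0 < h ∧ ∀ κ, ∃ lam, La J h κ lam := by
  obtain ⟨h, h0, k⟩ := ex_pow (𝓞 K)
  choose α hα using k
  exact ⟨h, Nat.pos_of_ne_zero h0, fun κ => ⟨fun I => if n : I = ⊥ then 0 else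
    (J (α I n))⁻¹ ^ (2 * κ), dif_pos rfl, fun I n => ⟨α I n, (hα I n).symm, dif_neg n⟩⟩⟩

theorem ov3 (e : Crv) : Ov 3 (e.P 3) := e.ov 3 e.pm

theorem dv {l a : ℕ} {P : Ideal (𝓞 Qb)} (o : Ov l P) (m : (a : 𝓞 Qb) ∈ P) : l ∣ a := by
  exact_mod_cast P004S.ov_dvd o (a := a) (by exact_mod_cast m)

theorem mb {K : Type} [Field K] (j : K →+* Qb) {P : Ideal (𝓞 Qb)} (n : ℕ) :
    (n : 𝓞 K) ∈ below j P ↔ (n : 𝓞 Qb) ∈ P := by
  rw [below, Ideal.mem_comap, map_natCast]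

theorem ab (hI : IOT) (hV : LVX) (h : Pl ι V (e.P 3)) (b : Fld e) :
    Ab ι (Jc b.j) b.j (e.P 3) ∧ ∀ x : 𝓞 b.K, ‖ι (Jc b.j x)‖ ≤ 1 := by
  have k := (((hI _ (ov3 e)).2 ι V h).2 b.K b.j _ _ (hV e b).1 (hV e b).2.1).2.1
  simp only [h.eq] at k
  exact ⟨⟨ov3 e, fun x => (k x).2.1.symm⟩, fun x => (k x).1⟩

theorem p48 (R : Rh ρ S) (g : GQ) : ρ (g ^ 48) = 1 := by
  have c : Nat.card G3ˣ = 48 := by
    simpa [Fin.prod_univ_two] using Matrix.card_GL_field (𝔽 := ZMod 3) 2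
  have := pow_card_eq_one' (x := (Fm.hom R).toHomUnits g)
  rw [c, ← map_pow] at this
  exact congrArg Units.val this

theorem add (L : Lz b k c χ) (g : GQ) (m : g ∈ GK b.j) (h : GQ) (m' : h ∈ GK b.j) :
    χ (g * h) = χ g + χ h := by
  have := L.ad.add g m h m'
  rw [pow_succ'] at this
  simpa using (ZMod.natCast_eq_natCast_iff _ _ _).2 this

theorem ker (L : Lz b k c χ) (g : GQ) (m : g ∈ Hc b.j c) : χ g = 0 := by
  have := L.ad.ker g m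
  rw [pow_succ'] at this
  simpa using (ZMod.natCast_eq_zero_iff _ _).2 this

theorem pw (L : Lz b k c χ) {g : GQ} (m : g ∈ GK b.j) (n : ℕ) : χ (g ^ n) = n * χ g := by
  induction n with
  | zero => rw [pow_zero, ker L 1 (one_mem _), Nat.cast_zero, zero_mul]
  | succ n h => rw [pow_succ g, add L _ (pow_mem m n) _ m, h, Nat.cast_succ, add_one_mul]

/-- the layer over the quadratic field -/
theorem lw (r1 : RC1) (r2 : RC2) (L : Lz b k c χ) : Lw b.j c k χ := by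
  have c0 : 0 < c := L.one.le
  obtain ⟨-, -, -, -, a5, -, a7⟩ := r2 b.K b.j b.iq c c0
  refine ⟨show c.Coprime (2 * 3) from Nat.Coprime.mul_right
    (Nat.prime_two.coprime_iff_not_dvd.2 fun h => (L.out 2 Nat.prime_two h).1 e.two).symm
    (Nat.prime_three.coprime_iff_not_dvd.2 fun h => (L.out 3 Nat.prime_three h).1 e.pm).symm,
    L.one, add L, ⟨_, (r1 b.K b.j b.iq c c0).2.1, fun g _ => ker L g⟩, fun l P o d g m i => ?_,
    L.ram⟩
  have a := a7 P o.2.1 (fun e => o.1.ne_zero (by simpa [e] using o.2.2))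
    (fun m => d (dv o m)) g m 0 fun x => by rw [pow_zero, pow_one]; exact i x
  rw [pow_zero, Ideal.one_eq_top] at a
  exact ker L g ((a5 _ g ⟨top_ne_bot, top_sup_eq _⟩ a).2 ⟨1, 0, by simp⟩)

theorem u_pow (k : ℕ) :
    (Ideal.Quotient.mk _ (1 + PowerSeries.X) : Rb (3 * 3 ^ k)) ^ (3 * 3 ^ k) = 1 := by
  have : Fact (Nat.Prime 3) := ⟨Nat.prime_three⟩
  have : CharP (PowerSeries (ZMod 3)) 3 :=
    charP_of_injective_ringHom (f := PowerSeries.C) PowerSeries.C_injective 3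
  have z := add_pow_char_pow (R := PowerSeries (ZMod 3)) (p := 3) (n := k + 1) 1 PowerSeries.X
  rw [pow_succ'] at z
  rw [← map_pow, z, one_pow, map_add, map_one,
    Ideal.Quotient.eq_zero_iff_mem.2 (Ideal.mem_span_singleton_self _), add_zero]

theorem uc (L : Lz b k c χ) (W : Lw b.j c k χ) :
    Uc b.Γ (b.T c) (3 * 3 ^ k) fun g => (χ g).val := by
  have z : ∀ g, χ g = 0 → uu (3 * 3 ^ k) (fun g => (χ g).val) g = 1 := fun g h => by
    simp only [uu, h, ZMod.val_zero, pow_zero]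
  obtain ⟨U, o, u⟩ := W.opn
  refine ⟨z 1 (ker L 1 (one_mem _)), fun g m h m' => ?_, ⟨U, o, fun g m h => z g (u g m h)⟩,
    fun g ⟨l, n, P, o, i⟩ m => z g (W.unr l P o (fun d => n ?_) g m i)⟩
  · simp only [uu]
    rw [add L g m h m', ZMod.val_add, ← pow_eq_pow_mod _ (u_pow k), pow_add]
  · exact Finset.mem_union_right _ (Nat.mem_primeFactors.2 ⟨o.1, d, (zero_lt_one.trans L.one).ne'⟩)

theorem ex_s0 {K : Type} [Field K] [NumberField K] (j : K →+* Qb) {P : Ideal (𝓞 Qb)} {p : ℕ}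
    (oP : Ov p P) {Q₂ : Ideal (𝓞 K)} (S : P004F.Qx.Sp p (below j P) Q₂) {m : ℕ} (o : ¬ p ∣ m) :
    ∃ s : 𝓞 K, (∀ (M : Type) [Field M] [NumberField M] [Algebra K M] (I : Ideal (𝓞 M)),
      I ⊔ Ideal.span {algebraMap (𝓞 K) (𝓞 M) s} = ⊤ ↔
        I ⊔ (Q₂ * Ideal.span {(m : 𝓞 K)}).map (algebraMap (𝓞 K) (𝓞 M)) = ⊤) ∧ s ∉ below j P ∧
    ∀ l Q, Ov l Q → s ∈ below j Q → l ∣ p * m := by
  obtain ⟨h, h0, k⟩ := ex_pow (𝓞 K)
  have q : (p : 𝓞 K) ∈ Q₂ := Ideal.mul_le_right (I := below j P) (by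
    rw [S.mul]
    exact Ideal.mem_span_singleton_self _)
  have n : Q₂ * Ideal.span {(m : 𝓞 K)} ≠ ⊥ := fun z => by
    rcases Ideal.mul_eq_bot.1 z with z | z
    · rw [z, Ideal.mem_bot, Nat.cast_eq_zero] at q
      exact oP.1.ne_zero q
    · rw [Ideal.span_singleton_eq_bot, Nat.cast_eq_zero] at z
      exact o (z ▸ dvd_zero p)
  obtain ⟨s, hs⟩ := k _ n
  have key : ∀ l Q, Ov l Q → s ∈ below j Q → Q₂ ≤ below j Q ∨ l ∣ m := fun l Q o a => by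
    have p := P004R.Gl.below_pr j o.2.1
    rw [← Ideal.span_singleton_le_iff_mem, ← hs] at a
    exact (p.mul_le.1 (p.le_of_pow_le a)).imp_right fun a =>
      dv o ((mb j m).1 ((Ideal.span_singleton_le_iff_mem _).1 a))
  refine ⟨s, fun M _ _ _ I => ?_, fun a => ?_, fun l Q o a => ?_⟩
  · rw [← Set.image_singleton, ← Ideal.map_span, ← hs, Ideal.map_pow,
      ← Ideal.isCoprime_iff_sup_eq, ← Ideal.isCoprime_iff_sup_eq,
      IsCoprime.pow_right_iff (Nat.pos_of_ne_zero h0)]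
  · rcases key p _ oP a with a | a
    · exact (P004R.Gl.below_pr j oP.2.1).ne_top (by rw [← S.cop, sup_eq_left.2 a])
    · exact o a
  · rcases key l Q o a with a | a
    · exact (dv o ((mb j p).1 (a q))).mul_right _
    · exact a.mul_left _

/-- the element which cuts out the primes of `S` other than `v` -/
theorem ex_s (hV : LVX) (b : Fld e) : ∃ s : 𝓞 b.K,
    (∀ (M : Type) [Field M] [NumberField M] [Algebra b.K M] (I : Ideal (𝓞 M)),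
      I ⊔ Ideal.span {algebraMap (𝓞 b.K) (𝓞 M) s} = ⊤ ↔
        I ⊔ (tS b).map (algebraMap (𝓞 b.K) (𝓞 M)) = ⊤) ∧ s ∉ below b.j (e.P 3) ∧
    ∀ l Q, Ov l Q → s ∈ below b.j Q → l ∈ e.S := by
  obtain ⟨-, -, o, m, v, -⟩ := hV e b
  obtain ⟨s, h1, h2, h3⟩ := ex_s0 b.j (ov3 e) (b.ch.spl 3 e.pm) o
  rw [m] at h3
  exact ⟨s, h1, h2, fun l Q o a => (v l o.1).1 (h3 l Q o a)⟩

theorem sb1 {x : Fin 2 → ZMod 3} {a : G3} (h : a = 1) : Sb x a ∧ sg a = 1 := by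
  subst h
  exact ⟨⟨Matrix.det_one, .inl (Matrix.one_mulVec x)⟩, by decide⟩

section

variable {M : Type} [Field M] [NumberField M] [Algebra b.K M] {jM : M →+* Qb}
  {x : Fin 2 → ZMod 3}

theorem lwM (R : Rh ρ e.S.toFinset) (L : Lz b k c χ) (W : Lw b.j c k χ)
    (G : ∀ g, g ∈ GK jM ↔ g ∈ b.Γ ∧ Sb x (ρ g)) : Lw jM c k χ := by
  obtain ⟨U, o, u⟩ := W.opn
  refine ⟨W.cop, W.one, fun g m h m' => W.add g ((G g).1 m).1 h ((G h).1 m').1,
    ⟨U, o, fun g m => u g ((G g).1 m).1⟩, fun l P o d g m => W.unr l P o d g ((G g).1 m).1,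
    fun l P o d => ?_⟩
  obtain ⟨t, m, i, a⟩ := W.ram l P o d
  exact ⟨t, (G t).2 ⟨m, (sb1 (R.unr t ⟨l, by simpa using (L.out l o.1 d).1, P, o, i⟩)).1⟩, i, a⟩

theorem ts (R : Rh ρ e.S.toFinset) (x0 : x ≠ 0) (k1 : 1 ≤ k) (L : Lz b k c χ)
    (em : ∀ y, jM (algebraMap b.K M y) = b.j y) (G : ∀ g, g ∈ GK jM ↔ g ∈ b.Γ ∧ Sb x (ρ g))
    {s : 𝓞 b.K} (u : ‖ι (Jc b.j s)‖ = 1) (h : ∀ l Q, Ov l Q → s ∈ below b.j Q → l ∈ e.S) :
    Ts ι (Jc b.j) jM (fun g => sg (ρ g)) c k χ e.S.toFinset s := by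
  obtain ⟨U, o, r⟩ := R.opn
  refine ⟨fun g m t m' => ?_, fun g m => (Fm.sb_mul x0 ((G g).1 m).2).1,
    ⟨U, o, fun g _ m => (sb1 (x := x) (r g m)).2⟩, R.three, fun l m d => ?_,
    fun g m _ => (sb1 (x := x) (R.unr g m)).2, u, fun l Q o a => ?_⟩
  · rw [R.mul]
    exact ((Fm.sb_mul x0 ((G g).1 m).2).2 _ ((G t).1 m').2).1
  · rw [List.mem_toFinset] at m
    exact (L.out l (e.ov l m).1 d).1 m
  · rw [show jM.comp (algebraMap b.K M) = b.j from RingHom.ext em] at a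
    have m := h l Q o a
    obtain ⟨φ, f⟩ := P022D.W.exists_phi o.1 o.2.1 o.2.2
    have d := GW.Pl.fr_dec o.2.1 o.1.ne_zero f
    obtain ⟨a1, a2⟩ := L.fro l m Q o
    obtain ⟨n, rfl⟩ := Nat.exists_eq_add_of_le' k1
    obtain ⟨v, hv⟩ := (a2 φ f).exists_left_inv
    have q := sb1 (x := x) (p48 R (φ ^ (3 ^ n * v.val)))
    have d' := pow_mem (pow_mem d (3 ^ n * v.val)) 48
    refine ⟨List.mem_toFinset.2 m, _, d', (G _).2 ⟨a1 d', q.1⟩, q.2, ?_⟩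
    have z := ZMod.natCast_self (3 * 3 ^ (n + 1))
    rw [← pow_mul, pw L (a1 d)]
    push_cast at z ⊢
    rw [ZMod.natCast_zmod_val]
    linear_combination 48 * 3 ^ n * hv + 5 * z

end

theorem lay {ζ ξ} (L : Lz b k c χ) (z : IsPrimitiveRoot ζ (3 * 3 ^ k))
    (h : Xi b.j c (fun g => (χ g).val) ζ ξ) : Lay b (k + 1) c (fun g => (χ g).val) ζ ξ := by
  have : Fact (1 < 3 * 3 ^ k) := ⟨by have := Nat.one_le_pow k 3 (by norm_num); omega⟩
  obtain ⟨q, p, d⟩ := Nat.exists_prime_and_dvd L.one.ne'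
  refine ⟨L.ad, L.sq, fun q p d => ⟨(L.out q p d).1, (L.out q p d).2.1⟩,
    by rw [pow_succ', z.pow_eq_one], h, fun q p d => ?_, q, p, d, (L.out q p d).2.2⟩
  obtain ⟨P, o⟩ := GW.Pl.ex_ov p
  obtain ⟨t, m, a, o'⟩ := L.ram q P o d
  refine ⟨P, o, t, m, a, ?_⟩
  rw [o', ZMod.val_one, pow_one]
  exact z.ne_one this.1

theorem deg {K M : Type} [Field K] [NumberField K] [Field M] [NumberField M] [Algebra K M]
    (w : Ideal (𝓞 M)) (hw : w.IsMaximal) : ∃ f, 0 < f ∧ f ≤ finrank K M ∧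
      Ideal.relNorm (𝓞 K) w = w.under (𝓞 K) ^ f := by
  have : NoZeroSMulDivisors (𝓞 K) (𝓞 M) := ⟨fun {c x} h => by
    rw [Algebra.smul_def, mul_eq_zero] at h
    exact h.imp_left fun h0 => FaithfulSMul.algebraMap_injective (𝓞 K) (𝓞 M)
      (by rw [h0, map_zero])⟩
  have m : (w.under (𝓞 K)).IsMaximal := inferInstance
  refine ⟨_, w.inertiaDeg_pos (𝓞 K), ?_, P004C.Al.Eu.norm_max w⟩
  rw [← Ideal.inertiaDeg'_eq_inertiaDeg (p := w.under (𝓞 K))]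
  exact Ideal.inertiaDeg_le_finrank (𝓞 M) K M w
    (Ring.ne_bot_of_isMaximal_of_not_isField m (RingOfIntegers.not_isField K))

theorem ex_p {R : Type} [CommRing R] {P : Ideal R} (h : P.IsPrime) (n : ℕ) :
    n ≠ 0 → (n : R) ∈ P → ∃ p : ℕ, p.Prime ∧ p ∣ n ∧ (p : R) ∈ P := by
  induction n using induction_on_primes with
  | zero => exact fun k => absurd rfl k
  | one => exact fun _ k => absurd ((Ideal.eq_top_iff_one _).2 (by simpa using k)) h.ne_top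
  | prime_mul p a hp ih =>
    intro n0 k
    rw [Nat.cast_mul] at k
    rcases h.mem_or_mem k with k | k
    · exact ⟨p, hp, dvd_mul_right _ _, k⟩
    · obtain ⟨q, q1, q2, q3⟩ := ih (right_ne_zero_of_mul n0) k
      exact ⟨q, q1, q2.mul_left _, q3⟩

/-- squares of units are congruent to one -/
theorem sq1 (h : V3 V) {α : ℂ} {t : ℤ} (a : V α = 1) (k : V (α - t) ≤ 1 / 3) (κ : ℕ) :
    V (α⁻¹ ^ (2 * κ) - 1) ≤ 1 / 3 := by
  have i : ∀ n : ℤ, V n ≤ 1 := fun n => h.1.apply_intCast_le_one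
  have i3 : ∀ n : ℤ, V (3 * n) ≤ 1 / 3 := fun n => by
    rw [map_mul, h.2]
    exact mul_le_of_le_one_right (by norm_num) (i n)
  have a0 : α ≠ 0 := fun z => by simp [z] at a
  obtain ⟨m, hm⟩ : (3 : ℤ) ∣ t ^ 2 - 1 := by
    have : t % 3 = 0 ∨ t % 3 = 1 ∨ t % 3 = 2 := by omega
    rcases this with r | r | r
    · obtain ⟨n, rfl⟩ := Int.dvd_of_emod_eq_zero r
      have := h.1 (α - (3 * n : ℤ)) (3 * n)
      rw [Int.cast_mul, Int.cast_ofNat] at this k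
      rw [sub_add_cancel, a] at this
      linarith [max_le k (i3 n)]
    all_goals exact Int.dvd_of_emod_eq_zero (by simp [sq, Int.sub_emod, Int.mul_emod, r])
  rw [pow_mul]
  refine Iq.pw h.1 (by rw [map_pow, map_inv₀, a, inv_one, one_pow]) ?_ _
  have hm' : (t : ℂ) ^ 2 - 1 = 3 * m := by exact_mod_cast hm
  rw [show α⁻¹ ^ 2 - 1 = -(α⁻¹ ^ 2 * ((α - t) * (α + t) + 3 * m)) by
    rw [← hm']; field_simp; ring, V.map_neg, map_mul, map_pow, map_inv₀, a, inv_one, one_pow, one_mul]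
  refine (h.1 _ _).trans (max_le ?_ (i3 m))
  rw [map_mul]
  exact (mul_le_of_le_one_right (V.nonneg _) ((h.1 _ _).trans (max_le a.le (i t)))).trans k

/-- **the Euler factors** -/
theorem eul (r2 : RC2) (hI : IOT) (hL : LVX) (hP : Pl ι V (e.P 3)) (hk : 1 ≤ k) (L : Lz b k c χ)
    {ζ} (z : IsPrimitiveRoot ζ (3 * 3 ^ k)) {ξ} (hξ : Xi b.j c (fun g => (χ g).val) ζ ξ) :
    ∀ h κ lam, 0 < h → La (Jc b.j) h κ lam →
    ∀ (M : Type) [Field M] [NumberField M] [Algebra b.K M], finrank b.K M ≤ 8 →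
    ∀ w : Ideal (𝓞 M), w.IsMaximal → ((e.S.prod / 3 : ℕ) : 𝓞 M) ∈ w →
    ∀ y : ℂ, y = 0 ∨ y ^ 2 = 1 → V (ζ - 1) ^ 3 ≤
      V (1 - y * (ξ (Ideal.relNorm (𝓞 b.K) w) * lam (Ideal.relNorm (𝓞 b.K) w))) := by
  intro h κ lam h0 hl M _ _ _ r w hw m y hy
  obtain ⟨kd, d3, od, s2, s3, -⟩ := hL e b
  obtain ⟨hV, k2⟩ := (hI _ (ov3 e)).2 ι V hP
  obtain ⟨-, k3, -⟩ := k2 b.K b.j _ _ kd d3
  obtain ⟨f, f0, f2, ef⟩ := deg (K := b.K) w hw
  have mx : (w.under (𝓞 b.K)).IsMaximal := inferInstance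
  obtain ⟨P, pP, eP⟩ := P022.H916.exists_above b.j _ mx.isPrime
  have m1 : ((e.S.prod / 3 : ℕ) : 𝓞 Qb) ∈ P := (mb b.j _).1 (by
    rw [eP, Ideal.under, Ideal.mem_comap, map_natCast]; exact m)
  obtain ⟨p, pp, pd, pm⟩ := ex_p pP _ (fun z => od (by rw [z]; exact dvd_zero 3)) m1
  have o : Ov p P := ⟨pp, pP, pm⟩
  have pS : p ∈ e.S := (s3 p pp).1 (s2 ▸ pd.mul_left 3)
  obtain ⟨g, hg⟩ := P022D.W.exists_phi pp pP pm
  obtain ⟨d1, d2⟩ := L.fro p pS P o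
  have gm : g ∈ GK b.j := d1 (P022D.W.phi_mem pp pP hg)
  have nm := P022.H20.norm_of_frob_mem kd.two pp b.j pP pm hg gm
  have c0 : 0 < c := zero_lt_one.trans L.one
  have pc : (c : 𝓞 Qb) ∉ P := fun k => (L.out p pp (dv o k)).1 pS
  have P0 : P ≠ ⊥ := fun z => pp.ne_zero (by simpa [z] using pm)
  have R := r2 b.K b.j b.iq c c0
  have ar := R.2.2.2.2.2.2 P pP P0 pc g gm 1 (by rw [nm, pow_one]; exact hg)
  rw [pow_one] at ar
  have b0 : below b.j P ≠ ⊥ := fun z => pp.ne_zero (by simpa [z] using (mb b.j p).2 pm)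
  have cp : ∀ n, Cop c (below b.j P ^ n) := fun n => ⟨pow_ne_zero _ b0,
    Ideal.isCoprime_iff_sup_eq.1 (IsCoprime.pow_left (Ideal.isCoprime_iff_sup_eq.2 (by
      by_contra t
      exact pc ((mb b.j c).1 ((Ideal.span_singleton_le_iff_mem _).1
        (le_sup_right.trans ((eP ▸ mx).eq_of_le t le_sup_left).ge))))))⟩
  have gp : ∀ n : ℕ, Ar b.j c (below b.j P ^ (n + 1)) (g ^ (n + 1)) ∧
      ζ ^ (χ (g ^ (n + 1))).val = (ζ ^ (χ g).val) ^ (n + 1) := fun n => by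
    induction n with
    | zero => simpa using ar
    | succ n ih =>
      rw [pow_succ _ (n + 1), pow_succ g (n + 1), pow_succ _ (n + 1), ← ih.2, ← pow_add]
      refine ⟨R.2.2.1 _ _ _ _ (cp _) (by simpa using cp 1) ih.1 ar, ?_⟩
      rw [add L _ (pow_mem gm _) g gm, ZMod.val_add, ← pow_eq_pow_mod _ z.pow_eq_one]
  obtain ⟨f, rfl⟩ : ∃ f', f = f' + 1 := ⟨f - 1, by omega⟩
  rw [ef, ← eP, hξ.1 _ _ (cp _) (gp f).1, (gp f).2]
  obtain ⟨α, a1, a2⟩ := hl.2 _ (cp (f + 1)).1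
  have a3 : V (Jc b.j α) = 1 := by
    refine (k3 α).1.eq_of_not_lt fun t => ?_
    have pr := P004R.Gl.below_pr b.j (ov3 e).2.1
    have t1 := (Ideal.span_singleton_le_iff_mem _).2 ((k3 α).2.1.1 t)
    rw [a1, ← pow_mul] at t1
    exact od ((dv (ov3 e) ((mb b.j p).1
      (pr.mem_of_pow_mem _ (t1 (Ideal.pow_mem_pow ((mb b.j p).2 pm) _))))).trans pd)
  obtain ⟨t, ht⟩ := (k3 α).2.2
  exact Iq.num hV.1 hV.2 hk z (Iq.pr_unit z (d2 g hg)) f0 (f2.trans r) (a2 ▸ sq1 hV a3 ht κ) hy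

end Ly

/-- **the layer in the words of the two blocks** -/
theorem lay (r1 : RC1) (r2 : RC2) (hI : IOT) (hV : LVX) : LAY := fun e b ι V h => by
  obtain ⟨A, A'⟩ := Ly.ab hI hV h b
  obtain ⟨s, s1, s2, s3⟩ := Ly.ex_s hV b
  refine ⟨A, Ly.ex_la _, s, s1, fun k c χ k1 L => ?_⟩
  have W := Ly.lw r1 r2 L
  refine ⟨Ly.uc L W, fun ρ x R x0 M _ _ _ jM em G => ⟨Ly.lwM R L W G, Ly.ts R x0 k1 L em G
    (le_antisymm (A' s) (not_lt.1 (mt (A.2 s).2 s2))) s3⟩, fun i hi ζ z => ?_⟩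
  have p : IsPrimitiveRoot ζ (3 * 3 ^ k) := z ▸ Iq.ze_pr (Iq.fa hi) k
  have v := ((hI _ (Ly.ov3 e)).2 ι V h).1
  exact ⟨Iq.vz v.1 v.2 k ζ p, fun ξ x => ⟨Ly.lay L p x, Ly.eul r2 hI hV h k1 L p x⟩⟩

end Vale.Agent.P014Y.Tp
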