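import Vale.Agent.P014Y.Tp.St
import Vale.Agent.P014Y.F.Pt.Kd

/-! # P014 Y, block TOP, row RHO: the residual representations (helper37) -/

set_option linter.all false

open NumberField Matrix
open scoped Classical

noncomputable section

namespace Vale.Agent.P014Y.Tp

open Vale.Agent.P022 (Qb GQ)
open Vale.Agent.P022D.W (dec)
open Vale.Agent.P014U
open P004F (Cc sd M2)
open P004F.Pr (ac)
open F (Crv Fld)
open Top (Pr)

namespace Ro

/-- transport of cocycles along a matrix -/
theorem cc_map {R : Type} [CommRing R] {Γ : Subgroup GQ} {T : Finset ℕ} {a a' : GQ → M2 R} {X : M2 R}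
    (h : ∀ g, a' g * X = X * a g) {x : GQ → Fin 2 → R} (k : Cc Γ T a x) :
    Cc Γ T a' fun g => X *ᵥ x g :=
  ⟨fun g m g' m' => by
    change _ = _ + a' g *ᵥ _
    rw [k.coc g m g' m', mulVec_add, mulVec_mulVec, h, ← mulVec_mulVec]
    rfl, fun g m => by rw [k.out g m, mulVec_zero],
    k.lc.imp fun W e => ⟨e.1, fun w m => by rw [e.2 w m, mulVec_zero]⟩,
    fun g m => by rw [k.unr g m, mulVec_zero]⟩

theorem cc_card {R : Type} [CommRing R] {Γ : Subgroup GQ} {T : Finset ℕ} {a a' : GQ → M2 R} {X : M2 R}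
    (u : IsUnit X.det) (h : ∀ g, a' g * X = X * a g) (D : Subgroup GQ) :
    Nat.card {x : GQ → Fin 2 → R | Cc Γ T a' x ∧ ∀ g ∈ D, x g = 0} =
      Nat.card {x : GQ → Fin 2 → R | Cc Γ T a x ∧ ∀ g ∈ D, x g = 0} :=
  Nat.card_congr
    { toFun := fun x => ⟨fun g => X⁻¹ *ᵥ x.1 g, cc_map (fun g => by
        rw [← nonsing_inv_mul_cancel_left X (a g) u, ← h, Matrix.mul_assoc,
          mul_nonsing_inv_cancel_right X _ u]) x.2.1, fun g m => by simp only [x.2.2 g m, mulVec_zero]⟩
      invFun := fun x => ⟨_, cc_map h x.2.1, fun g m => by rw [x.2.2 g m, mulVec_zero]⟩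
      left_inv := fun x => Subtype.ext (funext fun g => by
        simp only [mulVec_mulVec, mul_nonsing_inv X u, one_mulVec])
      right_inv := fun x => Subtype.ext (funext fun g => by
        simp only [mulVec_mulVec, nonsing_inv_mul X u, one_mulVec]) }

theorem sm_map {R S : Type} [CommRing R] [CommRing S] (f : S →+* R) (t : R) {A B X : M2 S}
    (h : A * X = X * B) : t • A.map f * X.map f = X.map f * t • B.map f := by
  rw [Matrix.mul_smul, Matrix.smul_mul, ← Matrix.map_mul, h, Matrix.map_mul]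

variable (e : Crv)

theorem mul (g h : GQ) : rho e (g * h) = rho e g * rho e h := by
  rw [rho, map_mul, Matrix.map_mul]; rfl

theorem of {g : GQ} (h : e.r g = 1) : rho e g = 1 := by
  rw [rho, h]; exact Matrix.map_one _ (map_zero _) (map_one _)

theorem cyc (g : GQ) (w : Qb) (h : w ^ 3 = 1) : g w = w ^ (rho e g).det.val := by
  have k := cyclotomicCharacter.spec 3 (n := 1) g.toRingEquiv w (by simpa using h)
  have d : (rho e g).det = PadicInt.toZMod (e.r g).det := (RingHom.map_det _ _).symm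
  have t : PadicInt.toZMod = (PadicInt.toZModPow (p := pp) 1 : _ →+* ZMod pp) :=
    ZMod.ringHom_eq_of_ker_eq _ _ (by
      rw [PadicInt.ker_toZMod, PadicInt.maximalIdeal_eq_span_p, ← pow_one (pp : ℤ_[pp])]
      exact (PadicInt.ker_toZModPow 1).symm)
  rw [d, Crv.r, X4M.TE.det_cyc, t]
  exact k

theorem sd_det (g : GQ) : (sd (-3) g : ZMod 3) = (rho e g).det := by
  obtain ⟨w, p⟩ : ∃ w : Qb, IsPrimitiveRoot w 3 := HasEnoughRootsOfUnity.exists_primitiveRoot _ _
  have s : w ^ 2 + w + 1 = 0 := by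
    have := p.geom_sum_eq_zero (by decide)
    simp only [Finset.sum_range_succ, Finset.sum_range_zero] at this
    linear_combination this
  have q : (2 * w + 1) ^ 2 = ((-3 : ℤ) : Qb) := by push_cast; linear_combination 4 * s
  have c := cyc e g w p.pow_eq_one
  have n : (rho e g).det ≠ 0 := left_ne_zero_of_mul_eq_one (b := (rho e g⁻¹).det) (by
    rw [← det_mul, ← mul, mul_inv_cancel, of e (map_one _), det_one])
  have z : ∀ x : ZMod 3, x ≠ 0 → x = 1 ∨ x = -1 := by decide
  unfold sd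
  rcases z _ n with d | d <;> rw [d] at c ⊢
  · rw [if_pos ((P004S.nu_eq_zero q).2 (by
      rw [map_add, map_mul, map_ofNat, map_one, c]; exact congrArg (2 * · + 1) (pow_one w)))]
    rfl
  · rw [(P004S.nu_eq_one (by decide) q).2 (by
      rw [map_add, map_mul, map_ofNat, map_one, c]
      change 2 * w ^ 2 + 1 = _
      linear_combination 2 * s), if_neg one_ne_zero]
    rfl

theorem tr : Tr e.a e.S (rho e) := fun p P g o h f => by
  have := congrArg PadicInt.toZMod ((e.bad p o.1 h).2.2 g ⟨P, o.2.1, o.2.2, f⟩)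
  rw [map_intCast] at this
  exact this.symm.trans (AddMonoidHom.map_trace PadicInt.toZMod.toAddMonoidHom _)

variable {e} {e' : Crv}

theorem pr (h : Pr (-3) e e') : ∃ X : G3, IsUnit X.det ∧ ∀ g, rho e' g * X = X * tw (rho e) g := by
  obtain ⟨M, u, k⟩ := h.r
  refine ⟨M.map PadicInt.toZMod, RingHom.map_det PadicInt.toZMod M ▸ u.map _, fun g => ?_⟩
  have := congrArg (·.map PadicInt.toZMod) (k g)
  simp only [Matrix.map_mul] at this
  rw [tw, ← sd_det, Matrix.mul_smul, Int.cast_smul_eq_zsmul]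
  exact this.trans ((map_zsmul PadicInt.toZMod.mapMatrix _ _).trans (congrArg _ Matrix.map_mul))

end Ro

open Ro in
/-- **row RHO** -/
theorem rho_row : RHO := by
  refine ⟨fun e => ⟨⟨of e (map_one _), mul e, ⟨e.rep.Kn 1, e.rep.Kn_open 1, fun g m =>
    e.tr_one.1 (e.rep.mem_Kn.1 m)⟩, fun g ⟨l, m, P, o, i⟩ => of e (e.r_inert o
      (mt List.mem_toFinset.2 m) i), cyc e, fun p m => (e.ov p (List.mem_toFinset.1 m)).1,
      List.mem_toFinset.2 e.two, List.mem_toFinset.2 e.pm⟩, tr e, fun b => ⟨fun g =>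
      (b.onto g).imp fun x k => ⟨k.1, congrArg (·.map PadicInt.toZMod) k.2⟩, fun J c χ => rfl⟩⟩,
    fun e e' h => ?_⟩
  obtain ⟨X, u, k⟩ := pr h
  refine ⟨fun p P g o m f => ?_, fun b b' s J c χ => ?_⟩
  · rw [tr e' p P g o (h.S ▸ m) f, ← mul_nonsing_inv_cancel_right X (rho e' g) u, k, trace_mul_cycle,
      nonsing_inv_mul X u, one_mul]
  · rw [Fld.Z0, s.Γ, h.P, show b'.T c = b.T c by rw [Fld.T, h.S]; rfl]
    refine cc_card (a' := fun g => uu J χ g • (rho e' g).map (c3 J)) (X := X.map (c3 J))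
      (RingHom.map_det (c3 J) X ▸ u.map _) (fun g => ?_) _
    exact sm_map (c3 J) (uu J χ g) (k g)

end Vale.Agent.P014Y.Tp
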