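import Vale.Agent.P014Y.Tp.St0

/-!
# P014 Y, block TOP: row `SHP`, induction from the fields of the lines (helper28)
-/

set_option linter.all false

open NumberField Module Matrix PowerSeries
open scoped Classical Pointwise

noncomputable section

namespace Vale.Agent.P014Y.Tp

open Vale.Agent.P022 (Qb GQ GK below)
open Vale.Agent.P022D.W (dec)
open Vale.Agent.P022K.G2 (In)

namespace Shp

theorem in_conj {T : Set ℕ} {i : GQ} (h : i ∈ In T) (g : GQ) : g * i * g⁻¹ ∈ In T := by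
  obtain ⟨l, a, P, ⟨b1, b2, b3⟩, c⟩ := h
  refine ⟨l, a, g • P, ⟨b1, inferInstance, ?_⟩, fun x => ?_⟩
  · rw [Ideal.mem_pointwise_smul_iff_inv_smul_mem]
    have : g⁻¹ • (l : 𝓞 Qb) = l := map_natCast (MulSemiringAction.toRingHom GQ (𝓞 Qb) g⁻¹) l
    rwa [this]
  · rw [Ideal.mem_pointwise_smul_iff_inv_smul_mem, smul_sub, ← mul_smul, ← mul_assoc,
      ← mul_assoc, inv_mul_cancel, one_mul, mul_smul]
    exact c _

theorem sg_eig : ∀ (m : G3) (x : Fin 2 → ZMod 3) (s : ZMod 3), x ≠ 0 → m.det = 1 →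
    m *ᵥ x = s • x → sg m = s := by
  intro m x s hx hd h
  have h0 := congrFun h 0
  have h1 := congrFun h 1
  have hx' : x 0 ≠ 0 ∨ x 1 ≠ 0 := by
    by_contra c
    rw [not_or, not_not, not_not] at c
    exact hx (funext fun i => by fin_cases i; exacts [c.1, c.2])
  simp only [mulVec, dotProduct, Fin.sum_univ_two, Pi.smul_apply, smul_eq_mul] at h0 h1
  rw [det_fin_two] at hd
  rw [sg, trace_fin_two]
  clear h hx
  generalize m 0 0 = a, m 0 1 = b, m 1 0 = c, m 1 1 = d, x 0 = p, x 1 = q at *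
  revert a b c d p q s
  decide

theorem sg_one : sg 1 = 1 := by
  rw [sg, trace_one]; decide

theorem sq_cases : ∀ s : ZMod 3, s * s = 1 → s = 1 ∨ s = -1 := by decide

theorem ax_eq (N : ℕ) (ε : GQ → ZMod 3) (χ : GQ → ℕ) (g : GQ) :
    ax N ε χ g = c3 N (ε g) * uu N χ g := by
  simp [ax, c3, uu]

section

variable {ρ : GQ → G3} {Γ₀ : Subgroup GQ} {κ : Type} {x : κ → Fin 2 → ZMod 3}

/-- `g` carries the point `(y, o)` to `(s x, 1)` -/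
structure Pt (ρ : GQ → G3) (Γ₀ : Subgroup GQ) (x : κ → Fin 2 → ZMod 3) (y : Fin 2 → ZMod 3)
    (o : ZMod 3) (i : κ) (g : GQ) (s : ZMod 3) : Prop where
  mem : g ∈ Γ₀
  sq : s * s = 1
  vec : ρ g *ᵥ y = s • x i
  ori : (ρ g).det * o = 1

/-- the value at a point -/
def vl {R : Type} [CommRing R] (c : ZMod 3 →+* R) (u : GQ → R) (F : κ → GQ → R) (i : κ) (g : GQ)
    (s : ZMod 3) (g' : GQ) : R := c s * u g⁻¹ * (F i (g * g') - F i g)

/-- the induced cocycle -/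
def zz {R : Type} [CommRing R] (ρ : GQ → G3) (Γ₀ : Subgroup GQ) (x : κ → Fin 2 → ZMod 3)
    (c : ZMod 3 →+* R) (u : GQ → R) (F : κ → GQ → R) (g' : GQ) (y : Fin 2 → ZMod 3)
    (o : ZMod 3) : R :=
  if g' ∈ Γ₀ then
    if h : ∃ t : κ × GQ × ZMod 3, Pt ρ Γ₀ x y o t.1 t.2.1 t.2.2 then
      vl c u F h.choose.1 h.choose.2.1 h.choose.2.2 g' else 0
  else 0

/-- the data -/
structure Dt {R : Type} [CommRing R] (ρ : GQ → G3) (Γ₀ : Subgroup GQ) (x : κ → Fin 2 → ZMod 3)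
    (Γ : κ → Subgroup GQ) (c : ZMod 3 →+* R) (u : GQ → R) (F : κ → GQ → R) : Prop where
  one : ρ 1 = 1
  mul : ∀ g h, ρ (g * h) = ρ g * ρ h
  ne : ∀ i, x i ≠ 0
  gam : ∀ i g, g ∈ Γ i ↔ g ∈ Γ₀ ∧ Sb (x i) (ρ g)
  ex : ∀ y, y ≠ 0 → ∃! i, ∃ g, (ρ g).det = 1 ∧ (ρ g *ᵥ x i = y ∨ ρ g *ᵥ x i = -y)
  uone : u 1 = 1
  umul : ∀ g ∈ Γ₀, ∀ h ∈ Γ₀, u (g * h) = u g * u h
  coc : ∀ i, ∀ h ∈ Γ i, ∀ g ∈ Γ₀, F i (h * g) = F i h + c (sg (ρ h)) * u h * F i g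

variable {R : Type} [CommRing R] {Γ : κ → Subgroup GQ} {c : ZMod 3 →+* R} {u : GQ → R}
  {F : κ → GQ → R}

theorem Dt.inv (D : Dt ρ Γ₀ x Γ c u F) (g : GQ) : ρ g⁻¹ * ρ g = 1 := by
  rw [← D.mul, inv_mul_cancel, D.one]

theorem Dt.inv' (D : Dt ρ Γ₀ x Γ c u F) (g : GQ) : ρ g * ρ g⁻¹ = 1 := by
  rw [← D.mul, mul_inv_cancel, D.one]

theorem Dt.wd (D : Dt ρ Γ₀ x Γ c u F) {y o i g s k h t} (p : Pt ρ Γ₀ x y o i g s)
    (q : Pt ρ Γ₀ x y o k h t) {g'} (hg : g' ∈ Γ₀) : vl c u F i g s g' = vl c u F k h t g' := by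
  have e1 : ρ (h * g⁻¹) * ρ g = ρ h := by rw [← D.mul, inv_mul_cancel_right]
  have d1 : (ρ (h * g⁻¹)).det = 1 := by
    have := q.ori
    rw [← e1, det_mul, mul_assoc, p.ori, mul_one] at this
    exact this
  have v1 : ρ (h * g⁻¹) *ᵥ x i = (s * t) • x k := by
    have := q.vec
    rw [← e1, ← mulVec_mulVec, p.vec, mulVec_smul] at this
    rw [mul_smul, ← this, ← mul_smul, p.sq, one_smul]
  have st : s * t = 1 ∨ s * t = -1 := sq_cases _ (by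
    rw [mul_mul_mul_comm, p.sq, q.sq, mul_one])
  have v2 : ρ (h * g⁻¹) *ᵥ x i = x k ∨ ρ (h * g⁻¹) *ᵥ x i = -x k := by
    rcases st with e | e
    · left; rw [v1, e, one_smul]
    · right; rw [v1, e, neg_one_smul]
  have ik : i = k := (D.ex (x k) (D.ne k)).unique ⟨_, d1, v2⟩
    ⟨1, by rw [D.one, det_one], Or.inl (by rw [D.one, one_mulVec])⟩
  subst ik
  have m0 : h * g⁻¹ ∈ Γ₀ := Γ₀.mul_mem q.mem (Γ₀.inv_mem p.mem)
  have m1 : h * g⁻¹ ∈ Γ i := (D.gam i _).2 ⟨m0, d1, v2⟩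
  have s1 := sg_eig _ _ _ (D.ne i) d1 v1
  have c1 := D.coc i _ m1 _ (Γ₀.mul_mem p.mem hg)
  have c2 := D.coc i _ m1 _ p.mem
  rw [← mul_assoc, inv_mul_cancel_right] at c1
  rw [inv_mul_cancel_right] at c2
  have u1 := D.umul _ (Γ₀.inv_mem q.mem) _ m0
  rw [inv_mul_cancel_left] at u1
  have t1 : c t * c t = 1 := by rw [← map_mul, q.sq, map_one]
  rw [vl, vl, c1, c2, s1, map_mul, u1]
  linear_combination (-(c s * u h⁻¹ * u (h * g⁻¹) * (F i (g * g') - F i g))) * t1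

theorem Dt.zz_eq (D : Dt ρ Γ₀ x Γ c u F) {y o i g s} (p : Pt ρ Γ₀ x y o i g s) {g'}
    (hg : g' ∈ Γ₀) : zz ρ Γ₀ x c u F g' y o = vl c u F i g s g' := by
  have h : ∃ t : κ × GQ × ZMod 3, Pt ρ Γ₀ x y o t.1 t.2.1 t.2.2 := ⟨(i, g, s), p⟩
  rw [zz, if_pos hg, dif_pos h]
  exact D.wd h.choose_spec p hg

theorem zz_no {y o} (h : ¬ ∃ i g s, Pt ρ Γ₀ x y o i g s) (g' : GQ) :
    zz ρ Γ₀ x c u F g' y o = 0 := by
  rw [zz, dif_neg fun ⟨t, p⟩ => h ⟨_, _, _, p⟩, ite_self]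

theorem zz_off {g' : GQ} (hg : g' ∉ Γ₀) : zz ρ Γ₀ x c u F g' = 0 := by
  funext y o
  rw [zz, if_neg hg]; rfl

theorem Dt.zz_zero (D : Dt ρ Γ₀ x Γ c u F) {g' : GQ}
    (h : g' ∈ Γ₀ → ∀ i, ∀ g ∈ Γ₀, F i (g * g') = F i g) : zz ρ Γ₀ x c u F g' = 0 := by
  by_cases hg : g' ∈ Γ₀
  · funext y o
    by_cases e : ∃ i g s, Pt ρ Γ₀ x y o i g s
    · obtain ⟨i, g, s, p⟩ := e
      rw [D.zz_eq p hg, vl, h hg i g p.mem, sub_self, mul_zero]; rfl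
    · exact zz_no e _
  · exact zz_off hg

theorem Pt.neg {y o i g s} (p : Pt ρ Γ₀ x y o i g s) : Pt ρ Γ₀ x (-y) o i g (-s) :=
  ⟨p.mem, by rw [neg_mul_neg, p.sq], by rw [mulVec_neg, p.vec, neg_smul], p.ori⟩

theorem Dt.odd (D : Dt ρ Γ₀ x Γ c u F) (g' y o) :
    zz ρ Γ₀ x c u F g' (-y) o = -zz ρ Γ₀ x c u F g' y o := by
  by_cases hg : g' ∈ Γ₀
  · by_cases e : ∃ i g s, Pt ρ Γ₀ x y o i g s
    · obtain ⟨i, g, s, p⟩ := e
      rw [D.zz_eq p hg, D.zz_eq p.neg hg, vl, vl, map_neg]; ring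
    · rw [zz_no e, zz_no, neg_zero]
      rintro ⟨i, g, s, p⟩
      exact e ⟨i, g, -s, by simpa using p.neg⟩
  · rw [zz_off hg]; simp

theorem zz_o (g' y) : zz ρ Γ₀ x c u F g' y 0 = 0 :=
  zz_no (fun ⟨_, _, _, p⟩ => by simpa using p.ori) _

theorem Dt.mv (D : Dt ρ Γ₀ x Γ c u F) {y o i g s} (p : Pt ρ Γ₀ x y o i g s) {a} (ha : a ∈ Γ₀) :
    Pt ρ Γ₀ x (ρ a⁻¹ *ᵥ y) ((ρ a⁻¹).det * o) i (g * a) s := by
  have e : ρ (g * a) * ρ a⁻¹ = ρ g := by rw [← D.mul, mul_inv_cancel_right]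
  exact ⟨Γ₀.mul_mem p.mem ha, p.sq, by rw [mulVec_mulVec, e, p.vec],
    by rw [← mul_assoc, ← det_mul, e, p.ori]⟩

theorem Dt.cc (D : Dt ρ Γ₀ x Γ c u F) {a b} (ha : a ∈ Γ₀) (hb : b ∈ Γ₀) (y o) :
    zz ρ Γ₀ x c u F (a * b) y o = zz ρ Γ₀ x c u F a y o +
      u a * zz ρ Γ₀ x c u F b (ρ a⁻¹ *ᵥ y) ((ρ a⁻¹).det * o) := by
  by_cases e : ∃ i g s, Pt ρ Γ₀ x y o i g s
  · obtain ⟨i, g, s, p⟩ := e
    have u1 := D.umul _ ha _ (Γ₀.inv_mem (Γ₀.mul_mem p.mem ha))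
    rw [_root_.mul_inv_rev, mul_inv_cancel_left, ← _root_.mul_inv_rev] at u1
    rw [D.zz_eq p ha, D.zz_eq p (Γ₀.mul_mem ha hb), D.zz_eq (D.mv p ha) hb, vl, vl, vl, u1,
      mul_assoc g a b]
    ring
  · rw [zz_no e, zz_no e, zz_no, mul_zero, add_zero]
    rintro ⟨i, g, s, p⟩
    have q := D.mv p (Γ₀.inv_mem ha)
    rw [inv_inv, mulVec_mulVec, D.inv', one_mulVec, ← mul_assoc, ← det_mul, D.inv', det_one,
      one_mul] at q
    exact e ⟨_, _, _, q⟩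

theorem Dt.mem1 (D : Dt ρ Γ₀ x Γ c u F) (i : κ) {g} (hg : g ∈ Γ₀) (h : ρ g = 1) : g ∈ Γ i :=
  (D.gam i g).2 ⟨hg, by rw [h, det_one], Or.inl (by rw [h, one_mulVec])⟩

theorem Dt.ev (D : Dt ρ Γ₀ x Γ c u F) (i : κ) {g} (hg : g ∈ Γ₀) :
    zz ρ Γ₀ x c u F g (x i) 1 = F i g := by
  have p : Pt ρ Γ₀ x (x i) 1 i 1 1 := ⟨Γ₀.one_mem, mul_one 1, by rw [D.one, one_mulVec, one_smul],
    by rw [D.one, det_one, mul_one]⟩
  have c1 := D.coc i 1 (Γ i).one_mem 1 Γ₀.one_mem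
  rw [mul_one, D.one, sg_one, map_one, D.uone, one_mul, one_mul] at c1
  have z : F i 1 = 0 := by linear_combination -c1
  rw [D.zz_eq p hg, vl, inv_one, D.uone, map_one, one_mul, one_mul, one_mul, z, sub_zero]

end

theorem zq_zero {R : Type} [CommRing R] (Γ₀ Γ : Subgroup GQ) (T : Finset ℕ) (a : GQ → R)
    (P : Ideal (𝓞 Qb)) : Zq Γ₀ Γ T a P 0 :=
  ⟨fun _ _ _ _ => by simp, fun _ _ => rfl, ⟨⊤, isOpen_univ, fun _ _ _ => rfl⟩, fun _ _ _ => rfl,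
    fun _ _ _ _ _ => rfl⟩

end Shp

open Shp in
/-- **row `SHP`** -/
theorem shp : SHP := by
  intro ρ S r K _ _ j _ κ _ x Γ hx hΓ ex T N χ P hS U hP hZ
  have dt : ∀ F : ∀ i, {F // Zq (GK j) (Γ i) T (ax N (fun g => sg (ρ g)) χ) P F},
      Dt ρ (GK j) x Γ (c3 N) (uu N χ) fun i => (F i).1 := fun F =>
    ⟨r.one, r.mul, hx, hΓ, ex, U.one, U.mul, fun i h hh g hg => by
      rw [(F i).2.coc h hh g hg, ax_eq]⟩
  have z8 : ∀ F : ∀ i, {F // Zq (GK j) (Γ i) T (ax N (fun g => sg (ρ g)) χ) P F},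
      Z8 (GK j) T ρ N χ P (zz ρ (GK j) x (c3 N) (uu N χ) fun i => (F i).1) := fun F => by
    have D := dt F
    refine ⟨D.odd, zz_o, fun a ha b hb y o => D.cc ha hb y o, fun g hg => zz_off hg, ?_,
      fun t ht => D.zz_zero fun m i g hg => ?_,
      fun d hd => D.zz_zero fun m i g hg => (F i).2.loc g hg d hd m⟩
    · choose W o hW using fun i => (F i).2.lc
      refine ⟨⨅ i, W i, ?_, fun w hw => D.zz_zero fun _ i g _ =>
        hW i g w (Subgroup.mem_iInf.1 hw i)⟩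
      rw [Subgroup.coe_iInf]
      exact isOpen_iInter_of_finite o
    · have h1 := in_conj ht g
      have h0 : g * t * g⁻¹ ∈ GK j := (GK j).mul_mem ((GK j).mul_mem hg m) ((GK j).inv_mem hg)
      have h2 : ρ (g * t * g⁻¹) = 1 := r.unr _ (by
        obtain ⟨l, a, b⟩ := h1
        exact ⟨l, fun c => a (hS c), b⟩)
      have h3 := D.mem1 i h0 h2
      have c1 := D.coc i _ h3 g hg
      rw [inv_mul_cancel_right, (F i).2.unr _ h1 h3, h2, sg_one, map_one, U.unr _ h1 h0, one_mul,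
        one_mul, zero_add] at c1
      exact c1
  let Φ : (∀ i, {F // Zq (GK j) (Γ i) T (ax N (fun g => sg (ρ g)) χ) P F}) →
      {z // Z8 (GK j) T ρ N χ P z} := fun F => ⟨_, z8 F⟩
  have inj : Function.Injective Φ := fun F G h => by
    funext i
    apply Subtype.ext
    funext g
    by_cases hg : g ∈ GK j
    · have e := congrFun (congrFun (congrFun (congrArg Subtype.val h) g) (x i)) 1
      exact ((dt F).ev i hg).symm.trans (e.trans ((dt G).ev i hg))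
    · rw [(F i).2.off g hg, (G i).2.off g hg]
  have fin := Nat.finite_of_card_ne_zero hZ
  have le := Nat.card_le_card_of_injective Φ inj
  have fin2 := Finite.of_injective Φ inj
  have ne : Nonempty (∀ i, {F // Zq (GK j) (Γ i) T (ax N (fun g => sg (ρ g)) χ) P F}) :=
    ⟨fun i => ⟨0, zq_zero _ _ _ _ _⟩⟩
  have pos := (Nat.card_pos (α := ∀ i, {F // Zq (GK j) (Γ i) T (ax N (fun g => sg (ρ g)) χ) P F})).ne'
  rw [Nat.card_pi] at le pos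
  exact ⟨fun i => Finset.prod_ne_zero_iff.1 pos i (Finset.mem_univ i), le⟩

end Vale.Agent.P014Y.Tp
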