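import Vale.Agent.P014Y.Tp.St
import Vale.Agent.P004C.Al.Smx
import Vale.Agent.P004C.Al.Icx
import Vale.Agent.P022E.GW.Fix

/-!
# P014 Y, block TOP: smoothing primes (row SMO)
-/

set_option linter.all false

open NumberField

noncomputable section

namespace Vale.Agent.P014Y.Tp

open Vale.Agent.P022 Vale.Agent.P022.H916
open Vale.Agent.P022E.GW (Ov)
open P004C.Al (Gc Ic Rm)
open C (Sm)

namespace Smo

variable {M : Type} [Field M] [NumberField M] {j : M →+* Qb} {θ : GQ → ℂ} {ψ : Ideal (𝓞 M) → ℂ}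

theorem sm_of {l : ℕ} {c : Ideal (𝓞 M)} (hl : l.Prime) (l3 : l ≠ 3) (hc : Ideal.absNorm c = l)
    (hd : ¬ l ∣ (discr M).natAbs) : Sm c l := by
  refine ⟨hl, l3, hc, fun h => hd ?_⟩
  have : (Ideal.span {(l : ℤ)}).IsMaximal :=
    PrincipalIdealRing.isMaximal_of_irreducible (Nat.prime_iff_prime_int.1 hl).irreducible
  have k := pow_sub_one_dvd_differentIdeal ℤ (p := Ideal.span {(l : ℤ)}) c 2
    (by simpa using hl.ne_zero) (by simpa [Ideal.map_span] using h)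
  rw [← absNorm_differentIdeal M (𝓞 M), ← hc]
  exact map_dvd _ (by simpa using k)

/-- the values -/
theorem val {n : ℕ} (G : Gc j θ n) (k : Ic j θ ψ) (I : Ideal (𝓞 M)) : ψ I = 0 ∨ ψ I ^ n = 1 := by
  by_cases b : I = ⊥
  · exact .inl (b ▸ k.bot)
  obtain ⟨fr, hfr⟩ := P022K.PB.exists_fr j
  refine P004C.Al.Rc.ind (p := fun I => ψ I = 0 ∨ ψ I ^ n = 1) (.inr (by rw [k.cm.one, one_pow]))
    (fun v I _ h => ?_) b
  have e : ψ v.asIdeal = 0 ∨ ψ v.asIdeal ^ n = 1 := by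
    rw [G.ic_eq hfr k]
    by_cases u : P022K.PB.Un G.hom v
    · exact .inr (by rw [P004C.Al.Rc.ic_un u, G.coe, G.pow _ (fr v).2])
    · exact .inl (P004C.Al.Rc.ic_ram u)
  rw [k.cm.mul, mul_pow]
  rcases e with e | e <;> rcases h with h | h <;> simp [e, h]

/-- a smoothing prime with prescribed value -/
theorem ex {n : ℕ} (G : Gc j θ n) (k : Ic j θ ψ) {g : GQ} (m : g ∈ GK j) {t : ℕ} (t0 : 0 < t) :
    ∃ (s : Ideal (𝓞 M)) (l : ℕ), Sm s l ∧ l.Coprime t ∧ ψ s = θ g := by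
  obtain ⟨W, oW, hW⟩ := G.opn
  obtain ⟨N, N0, hN⟩ := P022E.GW.Fx2.fin_ram W oW
  obtain ⟨l, φ, hl, o, ⟨P, hP, lP, fr⟩, k1, k2⟩ := P022K.Cheb.exists_fr
    (O := {φ | g⁻¹ * φ ∈ GK j ⊓ W}) (g := g)
    (((isOpen_GK j).inter oW).preimage (continuous_const.mul continuous_id)) (by simp)
    (3 * t * (discr M).natAbs * N).primeFactors
  rw [Nat.mem_primeFactors_of_ne_zero (by simp [t0.ne', discr_ne_zero, N0]), and_iff_right hl] at o
  have mφ : φ ∈ GK j := by simpa using mul_mem m k1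
  have r : θ φ = θ g := by rw [← mul_inv_cancel_left g φ, G.mul _ m _ k1, hW _ k1 k2, mul_one]
  have a := P004C.Al.Sx.deg_one hP hl lP fr mφ
  have ov : Ov l P := ⟨hl, hP, lP⟩
  refine ⟨below j P, l, sm_of hl (fun e => o (e ▸ ((dvd_mul_right _ _).mul_right _).mul_right _)) a
    fun d => o ((d.mul_left _).mul_right _),
    hl.coprime_iff_not_dvd.2 fun d => o (((d.mul_left _).mul_right _).mul_right _), ?_⟩
  rw [k.unr l P ov (fun ⟨i, a, b, c⟩ => c (hW i a (hN P hP (fun d => o (((P004C.Al.Rc.nat_mem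
    (j := j) ov).1 ((H651.natCast_mem_below j).2 d)).mul_left _)) i b))) φ mφ (by rwa [a]), r]

end Smo

/-- **row SMO** -/
theorem smo : SMO := fun M _ _ j θ ψ G ⟨g, m, n⟩ k => ⟨Smo.val G k, fun t t0 => by
  have e : θ g = -1 := (sq_eq_one_iff.1 (G.pow g m)).resolve_left n
  exact e ▸ Smo.ex G k m t0⟩

end Vale.Agent.P014Y.Tp
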