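import Vale.Agent.P014Y.Tp.St

/-!
# P014 Y, block TOP of the anchor at three: transport to the first field
-/

set_option linter.all false

open NumberField
open scoped Classical

noncomputable section

namespace Vale.Agent.P014Y.Tp

open Vale.Agent.P022 (Qb GQ GK below)
open P004K (Cn JJ Oc st Hp)
open P004F.Qx (Sp)
open F (Crv Fld)
open Ln (Hd An0)

namespace Trp

variable {K K' : Type} [Field K] [NumberField K] [Field K'] [NumberField K'] {j : K →+* Qb}
  {j' : K' →+* Qb}

theorem rng (h : GK j ≤ GK j') (x : K') : ∃ y, j y = j' x := by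
  haveI : IsAlgClosure ℚ Qb := AlgebraicClosure.instIsAlgClosure ℚ
  haveI : IsGalois ℚ Qb := IsAlgClosure.isGalois ℚ Qb
  have : j' x ∈ j.toRatAlgHom.fieldRange := by
    rw [← InfiniteGalois.fixedField_fixingSubgroup j.toRatAlgHom.fieldRange,
      IntermediateField.mem_fixedField_iff]
    intro g hg
    exact h (fun y => (IntermediateField.mem_fixingSubgroup_iff _ _).1 hg _ ⟨y, rfl⟩) x
  exact this

/-- two fields with the same group are isomorphic -/
theorem iso (h : GK j' = GK j) : ∃ i : K ≃+* K', ∀ x, j' (i x) = j x := by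
  choose f hf using rng h.le
  let F : K →+* K' :=
    { toFun := f
      map_one' := j'.injective (by simp [hf])
      map_mul' := fun x y => j'.injective (by simp [hf])
      map_zero' := j'.injective (by simp [hf])
      map_add' := fun x y => j'.injective (by simp [hf]) }
  refine ⟨RingEquiv.ofBijective F ⟨F.injective, fun y => ?_⟩, hf⟩
  obtain ⟨x, hx⟩ := rng h.ge y
  exact ⟨x, j'.injective ((hf x).trans hx)⟩

section

variable {O O' : Type} [CommRing O] [CommRing O'] (u : O ≃+* O')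

theorem sup {I I' : Ideal O'} (h : I ⊔ I' = ⊤) : I.comap u ⊔ I'.comap u = ⊤ := by
  rw [← Ideal.map_symm, ← Ideal.map_symm, ← Ideal.map_sup, h, Ideal.map_top]

theorem sp {N : ℕ} {I I' : Ideal O'} (h : Sp N I I') : Sp N (I.comap u) (I'.comap u) := by
  refine ⟨⟨fun k => by rw [Ideal.mem_comap, map_intCast]; exact h.cn.1 k, fun a => ?_⟩,
    sup u h.cop, ?_⟩
  · obtain ⟨k, hk⟩ := h.cn.2 (u a)
    exact ⟨k, by rwa [Ideal.mem_comap, map_sub, map_intCast]⟩
  · rw [← Ideal.map_symm, ← Ideal.map_symm, ← Ideal.map_mul, h.mul, Ideal.map_span,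
      Set.image_singleton, map_natCast]

variable {J : O →+* ℂ} {J' : O' →+* ℂ} (hu : ∀ x, J' (u x) = J x)
include hu

theorem oc (c : ℕ) : Oc J c = Oc J' c := Submodule.ext fun z =>
  ⟨fun ⟨k, a, e⟩ => ⟨k, u a, by rw [hu]; exact e⟩,
    fun ⟨k, a, e⟩ => ⟨k, u.symm a, by rw [← hu, u.apply_symm_apply]; exact e⟩⟩

theorem st_eq (I : Ideal O') (Λ : Submodule ℤ ℂ) : st J (I.comap u) Λ = st J' I Λ :=
  Submodule.ext fun z =>
    ⟨fun h a ha => by
      have := h (u.symm a) (by rwa [Ideal.mem_comap, u.apply_symm_apply])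
      rwa [← hu, u.apply_symm_apply] at this,
    fun h a ha => by
      have := h (u a) ha
      rwa [hu] at this⟩

theorem hp {N c : ℕ} {I : Ideal O'} {τ} (h : Hp J N (I.comap u) c τ) : Hp J' N I c τ := by
  rwa [Hp, st_eq u hu, oc u hu] at h

end

end Trp

open Trp in
/-- **row TRP** -/
theorem trp : TRP := fun e e' b b' hS hP sm => by
  refine ⟨?_, fun c χ l h T hT => ?_⟩
  · obtain ⟨i, hi⟩ := iso sm.Γ
    let u := RingOfIntegers.mapRingEquiv i
    have bl : ∀ P, (below b'.j P).comap u = below b.j P := fun P => Ideal.ext fun x =>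
      iff_of_eq (congrArg (· ∈ P) (RingOfIntegers.ext (hi x)))
    have ch := b'.ch
    rw [hS, hP] at ch
    refine ⟨b'.I.comap u, b'.I'.comap u, hS, ⟨sp u ch.lev, b.ch.spl, fun p hp => ⟨?_, ?_⟩,
      b.ch.mem, b.ch.frb⟩, fun c c0 cp g σ τ τ' h1 h2 h3 => b'.hg c c0 cp g σ τ τ' h1
        (Trp.hp u (fun x => congrArg P027M.M.io (hi x)) h2) h3,
      fun c c0 cp g hg => b'.fx c c0 cp g (sm.hc c ▸ hg)⟩
    · exact bl _ ▸ sup u (ch.cop p hp).1
    · have k := (sp u (ch.spl p hp)).mul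
      rw [bl, ← (b.ch.spl p hp).mul] at k
      have n : below b.j (e.P p) ≠ ⊥ := left_ne_zero_of_mul (a := below b.j (e.P p)) (b := b.Q p) (by
        rw [(b.ch.spl p hp).mul, Ne, Ideal.zero_eq_bot, Ideal.span_singleton_eq_bot]
        exact Nat.cast_ne_zero.2 (e.ov p hp).1.ne_zero)
      exact mul_left_cancel₀ n k ▸ sup u (ch.cop p hp).2
  · have := h T ⟨fun g hg => sm.Γ ▸ hT.1 g hg, fun g hg => sm.hc c ▸ hT.2 g (sm.Γ ▸ hg)⟩
    rw [hS, hP, sm.φ]
    exact this

end Vale.Agent.P014Y.Tp
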