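import Vale.Agent.P014Y.Tp.On2
import Vale.Agent.P014Y.Tp.Fam
import Vale.Agent.P014Y.Tp.Shp
import Vale.Agent.P014Y.Tp.Exa
import Vale.Agent.P014Y.Tp.Bch
import Vale.Agent.P014Y.Tp.Lay
import Vale.Agent.P014Y.Tp.Smo
import Vale.Agent.P014Y.Tp.Trp
import Vale.Agent.P014Y.Tp.Rho
import Vale.Agent.P014Y.Ln.Iot
import Vale.Agent.P014Y.Ln.Lvx
import Vale.Agent.P014Y.Ln.Lh
import Vale.Agent.P014Y.C.Al.Umf
import Vale.Agent.P004C.Al.Icx

/-!
# P014 Y, block TOP: the anchor at three from the three exports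
-/

namespace Vale.Agent.P014Y.Tp

theorem on2_all (hA : ALX1) (h3 : ANA) : ON2 :=
  on2 hA P004C.Al.icx C.Al.gbx Ln.iot Ln.xi0 Ln.lvx rho_row trp smo (bch P004K.x_rc2)
    (lay P004K.x_rc1 P004K.x_rc2 Ln.iot Ln.lvx) fam fap shp exa h3

/-- **the anchor at three** -/
theorem anc (hA : ALX1) (h3 : ANA) (hM : ADP) : ANC3 := anc3 hM (on2_all hA h3)

end Vale.Agent.P014Y.Tp
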