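import Vale.Agent.P014Y.Tp.St0
import Vale.Agent.P014Y.Ln.St1
import Vale.Agent.P014Y.St0

/-!
# P014 Y, block TOP of the anchor at three: words, rows over the frame, glue
-/

set_option linter.all false

open NumberField Module Matrix Filter
open scoped Classical

noncomputable section

namespace Vale.Agent.P014Y.Tp

open Vale.Agent.P022 (Qb GQ GK below)
open Vale.Agent.P027M.S (Inert)
open Vale.Agent.P027M.M (ze)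
open Vale.Agent.P022D.W (dec)
open Vale.Agent.P022E.GW (Ov Fb)
open P004C.Al (Gc Ic)
open P004C.Wa (Sp)
open P004C.Ln (Jc Xi Dp)
open C (Base Vb dv sc La Sm)
open F (Crv Fld)
open Ln (Pl Hd An0 Lay tS)
open Top (Pr Sur Par)

/-! ### words -/

/-- the residual representation -/
def rho (e : Crv) (g : GQ) : G3 := (e.r g).map PadicInt.toZMod

/-- one layer -/
structure Lz {e : Crv} (b : Fld e) (k c : ℕ) (χ : GQ → ZMod (3 * 3 ^ k)) : Prop where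
  ad : b.Ad (k + 1) c fun g => (χ g).val
  sq : Squarefree c
  one : 1 < c
  out : ∀ q : ℕ, q.Prime → q ∣ c → q ∉ e.S ∧ ¬ q ∣ b.δ' ∧ 17 < q
  spl : ∃ w w' : Ideal (𝓞 b.K), Sp c w w'
  ram : ∀ q P, Ov q P → q ∣ c → ∃ t ∈ b.Γ, Inert P t ∧ χ t = 1
  fro : ∀ p ∈ e.S, ∀ P, Ov p P → dec P ≤ b.Γ ∧ ∀ g, Fb p P g → IsUnit (χ g)

/-- the order of the algebraic side -/
def nz {e : Crv} (b : Fld e) (J c : ℕ) {n : ℕ} (χ : GQ → ZMod n) : ℕ :=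
  Nat.card (b.Z0 J c fun g => (χ g).val)

/-- the traces of the Frobenius elements modulo three -/
def Tr (a : ℕ → ℤ) (S : List ℕ) (ρ : GQ → G3) : Prop :=
  ∀ p P g, Ov p P → p ∉ S → Fb p P g → (a p : ZMod 3) = (ρ g).trace

/-- the residual image contains `-1` and is not abelian -/
def Ng (e : Crv) : Prop := (∃ g, rho e g = -1) ∧ ∃ g h, rho e g * rho e h ≠ rho e h * rho e g

/-- one tower for the two curves -/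
def Ad2 {e e' : Crv} (b : Fld e) (b' : Fld e') : Prop :=
  ∃ m B J : ℕ, ∀ n, ∃ (c : ℕ) (χ : GQ → ZMod (3 * 3 ^ (n + 1))),
    Lz b (n + 1) c χ ∧
    (m ≤ n → b.Tw m n c (fun g => (χ g).val) ∧ b'.Tw m n c fun g => (χ g).val) ∧
    (∀ J' ≤ 3 * 3 ^ (n + 1), nz b J' c χ ≠ 0 ∧ nz b J' c χ ≤ 3 ^ B ∧
      nz b' J' c χ ≠ 0 ∧ nz b' J' c χ ≤ 3 ^ B) ∧
    (J ≤ n → nz b (3 * 3 ^ (n + 1)) c χ ≤ nz b J c χ ∧ nz b' (3 * 3 ^ (n + 1)) c χ ≤ nz b' J c χ)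

/-! ### rows -/

/-- the residual representations -/
def RHO : Prop := (∀ e : Crv, Rh (rho e) e.S.toFinset ∧ Tr e.a e.S (rho e) ∧ ∀ b : Fld e,
    Im b.j (rho e) ∧ ∀ J c χ, Nat.card (b.Z0 J c χ) =
      Nat.card (Zc b.Γ (b.T c) (rho e) J χ (e.P 3))) ∧
  ∀ e e' : Crv, Pr (-3) e e' → Tr e'.a e.S (tw (rho e)) ∧ ∀ (b : Fld e) (b' : Fld e'),
    b.Same b' → ∀ J c χ, Nat.card (b'.Z0 J c χ) =
      Nat.card (Zc b.Γ (b.T c) (tw (rho e)) J χ (e.P 3))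

/-- transport of the second curve to the first field -/
def TRP : Prop := ∀ (e e' : Crv) (b : Fld e) (b' : Fld e'), e'.S = e.S → e'.P = e.P → b.Same b' →
  (∃ I I', Hd b e' I I' b'.Y) ∧ ∀ c χ l, An0 b e' b'.Y c χ l → b'.An e'.S c χ l

/-- smoothing primes -/
def SMO : Prop := ∀ (M : Type) [Field M] [NumberField M] (j : M →+* Qb) θ ψ, Gc j θ 2 →
  (∃ g ∈ GK j, θ g ≠ 1) → Ic j θ ψ → (∀ I, ψ I = 0 ∨ ψ I ^ 2 = 1) ∧ ∀ t, 0 < t →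
    ∃ (s : Ideal (𝓞 M)) (l : ℕ), Sm s l ∧ l.Coprime t ∧ ψ s = -1

/-- base change of characters -/
def BCH : Prop := ∀ (e : Crv) (b : Fld e) (M : Type) [Field M] [NumberField M] [Algebra b.K M]
  (jM : M →+* Qb), (∀ y, jM (algebraMap b.K M y) = b.j y) → ∀ k c χ, Lz b k c χ → Lw jM c k χ →
  Gc jM (fun g => ze (3 * 3 ^ k) (χ g).val) (3 * 3 ^ k) ∧ ∀ χM ξ, ∀ i ∈ Fa k,
    Ic jM (fun g => ze (3 * 3 ^ k) (χ g).val) χM →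
    Xi b.j c (fun g => (χ g).val) (ze (3 * 3 ^ k) i) ξ →
    ∀ I, χM I ^ i = ξ (Ideal.relNorm (𝓞 b.K) I)

/-- the layer in the words of the two blocks -/
def LAY : Prop := ∀ (e : Crv) (b : Fld e) ι V, Pl ι V (e.P 3) → Ab ι (Jc b.j) b.j (e.P 3) ∧
  (∃ h, 0 < h ∧ ∀ κ, ∃ lam, La (Jc b.j) h κ lam) ∧ ∃ s : 𝓞 b.K,
  (∀ (M : Type) [Field M] [NumberField M] [Algebra b.K M] (I : Ideal (𝓞 M)),
    I ⊔ Ideal.span {algebraMap (𝓞 b.K) (𝓞 M) s} = ⊤ ↔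
      I ⊔ (tS b).map (algebraMap (𝓞 b.K) (𝓞 M)) = ⊤) ∧
  ∀ k c χ, 1 ≤ k → Lz b k c χ → Uc b.Γ (b.T c) (3 * 3 ^ k) (fun g => (χ g).val) ∧
    (∀ ρ x, Rh ρ e.S.toFinset → x ≠ 0 → ∀ (M : Type) [Field M] [NumberField M] [Algebra b.K M]
      (jM : M →+* Qb), (∀ y, jM (algebraMap b.K M y) = b.j y) →
      (∀ g, g ∈ GK jM ↔ g ∈ b.Γ ∧ Sb x (ρ g)) → Lw jM c k χ ∧
        Ts ι (Jc b.j) jM (fun g => sg (ρ g)) c k χ e.S.toFinset s) ∧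
    ∀ i ∈ Fa k, ∀ ζ, ζ = ze (3 * 3 ^ k) i → V (ζ - 1) ^ (2 * 3 ^ k) = 1 / 3 ∧
      ∀ ξ, Xi b.j c (fun g => (χ g).val) ζ ξ → Lay b (k + 1) c (fun g => (χ g).val) ζ ξ ∧
        ∀ h κ lam, 0 < h → La (Jc b.j) h κ lam →
        ∀ (M : Type) [Field M] [NumberField M] [Algebra b.K M], finrank b.K M ≤ 8 →
        ∀ w : Ideal (𝓞 M), w.IsMaximal → ((e.S.prod / 3 : ℕ) : 𝓞 M) ∈ w →
        ∀ y : ℂ, y = 0 ∨ y ^ 2 = 1 → V (ζ - 1) ^ 3 ≤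
          V (1 - y * (ξ (Ideal.relNorm (𝓞 b.K) w) * lam (Ideal.relNorm (𝓞 b.K) w)))

/-- **the export of the block LN** -/
def ANA : Prop := ∀ (e e' : Crv) (ρ : GQ → G3), Rh ρ e.S.toFinset →
  (∃ g h, ρ g * ρ h ≠ ρ h * ρ g) → e'.S = e.S → Tr e.a e.S ρ → Tr e'.a e.S (tw ρ) →
  ∀ (κ : Type) [Fintype κ] (x : κ → Fin 2 → ZMod 3) (L : κ → Type) [∀ i, Field (L i)]
    [∀ i, NumberField (L i)] (jL : ∀ i, L i →+* Qb), Fam ρ x jL → ∀ ι V, Pl ι V (e.P 3) →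
  ∃ T : ℕ, ∀ b : Fld e, T ≤ b.δ' → Im b.j ρ → ∀ I I' Y, Hd b e' I I' Y →
  ∀ Ω, Base ι (Jc b.j) Ω → ∀ (M : κ → Type) [∀ i, Field (M i)] [∀ i, NumberField (M i)]
    [∀ i, Algebra b.K (M i)] [∀ i, Algebra (L i) (M i)] (jM : ∀ i, M i →+* Qb),
  (∀ i, Cp b.j (jL i) (jM i)) → ∀ (n : κ → ℕ) (β : ∀ i, Basis (Fin (n i)) b.K (M i))
    (ψ : ∀ i, Ideal (𝓞 (M i)) → ℂ), (∀ i, Vb ι (Jc b.j) (β i)) →
  (∀ i, Ic (jM i) (fun g => th 0 (ρ g)) (ψ i)) → (∀ i t, 0 < t →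
    ∃ (s : Ideal (𝓞 (M i))) (l : ℕ), Sm s l ∧ l.Coprime t ∧ ψ i s = -1) →
  ∀ B : ℕ, ∃ δ : ℝ, δ < 1 ∧ ∀ n₀ c χ ζ ξ, Lay b n₀ c χ ζ ξ →
  (∃ w w' : Ideal (𝓞 b.K), Sp c w w') → ∀ (h k : ℕ) lam, La (Jc b.j) h k lam → 3 ≤ 2 * h * k →
  ∀ (a : ∀ i, Ideal (𝓞 (M i)) → ℂ) (y : ℝ), (∀ i I, a i I = ψ i I *
    (ξ (Ideal.relNorm (𝓞 b.K) I) * lam (Ideal.relNorm (𝓞 b.K) I))) →
  y = ∏ i, sc Ω (dv ι (Jc b.j) (β i) * cf ι (Jc b.j) (ψ i)) (n i) (2 * h * k) *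
    V (∑' I, Dp ((tS b).map (algebraMap (𝓞 b.K) (𝓞 (M i)))) (a i) I) →
  δ < V (ζ - 1) → V (ζ - 1) ^ B ≤ y → (∀ i (w : Ideal (𝓞 (M i))), w.IsMaximal →
    ((e.S.prod / 3 : ℕ) : 𝓞 (M i)) ∈ w → ∀ u : ℂ, u = 0 ∨ u ^ 2 = 1 → V (ζ - 1) ^ 3 ≤
      V (1 - u * (ξ (Ideal.relNorm (𝓞 b.K) w) * lam (Ideal.relNorm (𝓞 b.K) w)))) →
  ∃ l l', An0 b e b.Y c χ l ∧ An0 b e' Y c χ l' ∧ y ≤ V (ζ - 1) ^ (4 * (l + l'))

/-- **the export of the block MU: one tower for the two curves** -/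
def ADP : Prop := ∀ (e e' : Crv) (b : Fld e) (b' : Fld e'), Pr (-3) e e' → b.Same b' →
  Sur e.par.disc → Par b → Par b' → ∃ m B J : ℕ, ∀ n, ∃ (c : ℕ) (χ : GQ → ZMod (3 * 3 ^ (n + 1))),
    Lz b (n + 1) c χ ∧
    (m ≤ n → b.Tw m n c (fun g => (χ g).val) ∧ b'.Tw m n c fun g => (χ g).val) ∧
    (∀ J' ≤ 3 * 3 ^ (n + 1), nz b J' c χ ≠ 0 ∧ nz b J' c χ ≤ 3 ^ B ∧
      nz b' J' c χ ≠ 0 ∧ nz b' J' c χ ≤ 3 ^ B) ∧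
    (J ≤ n → nz b (3 * 3 ^ (n + 1)) c χ ≤ nz b J c χ ∧ nz b' (3 * 3 ^ (n + 1)) c χ ≤ nz b' J c χ)

/-- **the anchor at one layer** -/
def ON2 : Prop := ∀ e e' : Crv, Pr (-3) e e' → Ng e → ∃ T : ℕ,
  ∀ (b : Fld e) (b' : Fld e'), T ≤ b.δ' → b.Same b' → ∀ B : ℕ, ∃ k₀, ∀ k, k₀ ≤ k →
  ∀ c χ, Lz b k c χ → nz b (3 * 3 ^ k) c χ ≠ 0 → nz b (3 * 3 ^ k) c χ ≤ 3 ^ B →
  nz b' (3 * 3 ^ k) c χ ≠ 0 → nz b' (3 * 3 ^ k) c χ ≤ 3 ^ B →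
  ∃ l l', 3 ^ (2 * (l + l')) ≤ nz b (3 * 3 ^ k) c χ * nz b' (3 * 3 ^ k) c χ ∧
    b.An e.S c (fun g => (χ g).val) l ∧ b'.An e'.S c (fun g => (χ g).val) l'

/-- **the anchor at three** -/
def ANC3 : Prop := ∀ e e' : Crv, Pr (-3) e e' → Sur e.par.disc → ∃ T : ℕ,
  ∀ (b : Fld e) (b' : Fld e'), T ≤ b.δ' → b.Same b' → Par b → Par b' → b.Anc2 b'

/-! ### glue -/

theorem ng_sur {e : Crv} (su : Sur e.par.disc) : Ng e := by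
  obtain ⟨g₁, hg₁⟩ : ∃ g, rho e g = !![1, 1; 0, 1] := su _ (by decide)
  obtain ⟨g₂, hg₂⟩ : ∃ g, rho e g = !![1, 0; 1, 1] := su _ (by decide)
  exact ⟨su _ (by decide), g₁, g₂, by rw [hg₁, hg₂]; decide⟩

/-- the anchor from a tower, for any image with `-1` that is not abelian -/
theorem anc_of (hO : ON2) {e e' : Crv} (pr : Pr (-3) e e') (ng : Ng e) : ∃ T : ℕ,
    ∀ (b : Fld e) (b' : Fld e'), T ≤ b.δ' → b.Same b' → Ad2 b b' → b.Anc2 b' := by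
  obtain ⟨T, hT⟩ := hO e e' pr ng
  refine ⟨T, fun b b' le sm ⟨m, B, J, k'⟩ => ?_⟩
  choose c χ h1 h2 h3 h4 using k'
  obtain ⟨k₀, hk⟩ := hT b b' le sm B
  refine ⟨m, B, c, c, fun n g => (χ n g).val, fun n g => (χ n g).val,
    (eventually_ge_atTop m).mono h2, fun J' => (eventually_ge_atTop J').mono fun n hn => ?_, J,
    ((eventually_ge_atTop J).and (eventually_ge_atTop k₀)).mono fun n hn => ?_⟩
  · have := Nat.lt_pow_self (n := n + 1) (show 1 < 3 by norm_num)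
    have := h3 n J' (by omega)
    exact ⟨this.2.1, this.2.2.2⟩
  · obtain ⟨a, a', d, d'⟩ := h3 n _ le_rfl
    obtain ⟨l, l', u, v⟩ := hk (n + 1) (by omega) _ _ (h1 n) a a' d d'
    exact ⟨l, l', u.trans (Nat.mul_le_mul (h4 n hn.1).1 (h4 n hn.1).2), v⟩

theorem anc3 (hA : ADP) (hO : ON2) : ANC3 := fun e e' pr su =>
  (anc_of hO pr (ng_sur su)).imp fun _ h b b' le sm p p' =>
    h b b' le sm (hA e e' b b' pr sm su p p')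

end Vale.Agent.P014Y.Tp
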