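import Vale.Agent.P014Y.Tp.On2
import Vale.Agent.P014Y.Tp.Smo
import Vale.Agent.P014Y.F.Pt.Kd
import Vale.Agent.P014Y.Ln.St4
import Vale.Agent.P014Y.Ln.An2

/-!
# P014 Y, block TOP: the anchor at one layer for any non abelian representation (helper6)
-/

set_option linter.all false

open NumberField Module Matrix Filter Topology
open scoped Classical

noncomputable section

namespace Vale.Agent.P014Y.Tp

open Vale.Agent.P022 (Qb GQ GK below)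
open Vale.Agent.P022.H916
open Vale.Agent.P022E.GW (Ov)
open Vale.Agent.P027M.M (ze)
open P004C.Al (Gc Ic Ls ICX)
open P004C.Ln (Jc Xi Dp)
open C (Base Vb dv sc La Sm)
open C.Al (GBX)
open F (Crv Fld)
open Ln (Pl Hd An0 Lay tS IOT XI LVX ANB NRM V3)

/-- the number of cocycles at the top of the layer -/
def zc {e : Crv} (b : Fld e) (ρ : GQ → G3) (k c : ℕ) (χ : GQ → ZMod (3 * 3 ^ k)) : ℕ :=
  Nat.card (Zc b.Γ (b.T c) ρ (3 * 3 ^ k) (fun g => (χ g).val) (e.P 3))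

/-- **the anchor at one layer**, for a representation with the traces of the curves -/
def ON3 : Prop := ∀ (e e' : Crv) (ρ : GQ → G3), e'.S = e.S → e'.P = e.P → Rh ρ e.S.toFinset →
  (∃ g h, ρ g * ρ h ≠ ρ h * ρ g) → Tr e.a e.S ρ → Tr e'.a e.S (tw ρ) → ∃ T : ℕ,
  ∀ (b : Fld e) (b' : Fld e'), T ≤ b.δ' → b.Same b' → ∀ B : ℕ, ∃ k₀, ∀ k, k₀ ≤ k →
  ∀ c χ, Lz b k c χ → zc b ρ k c χ ≠ 0 → zc b ρ k c χ ≤ 3 ^ B →
  zc b (tw ρ) k c χ ≠ 0 → zc b (tw ρ) k c χ ≤ 3 ^ B →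
  ∃ l l', 3 ^ (2 * (l + l')) ≤ zc b ρ k c χ * zc b (tw ρ) k c χ ∧
    b.An e.S c (fun g => (χ g).val) l ∧ b'.An e'.S c (fun g => (χ g).val) l'

namespace O3

theorem same {e : Crv} (b : Fld e) : b.Same b := ⟨rfl, rfl, fun _ => rfl, fun _ _ => .rfl, rfl, rfl⟩

theorem im_of {e : Crv} (b : Fld e) {ρ : GQ → G3} (r : Rh ρ e.S.toFinset) : Im b.j ρ := fun g => by
  by_cases m : g ∈ b.Γ
  · exact ⟨g, m, rfl⟩
  obtain ⟨l, hl, d⟩ := Nat.exists_prime_and_dvd (n := b.δ') (by have := b.adm.m8; omega)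
  obtain ⟨P, o⟩ := P004R.Mu.ex_pl hl
  obtain ⟨τ, t⟩ := P022E.GW.Tg.ex_gn' o
  exact ⟨g * τ, b.mul_out m fun m => one_ne_zero ((P004S.nu_tau o (e.ne_two (b.out_S hl d))
    (Int.squarefree_natAbs.1 (by simpa using b.adm.sq))
      (dvd_neg.2 (Int.natCast_dvd_natCast.2 d)) t).symm.trans ((b.kd.gk τ).1 m)), by
    rw [r.mul, r.unr τ ⟨l, mt List.mem_toFinset.1 (b.out_S hl d), P, o, t.1⟩, mul_one]⟩

theorem alx (h1 : ALX1) (h0 : ALX0) : ALX fun _ => True := by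
  intro K M _ _ _ _ _ ι J Ω B j jM P ε c k e S s a1 a2 a3 a4 a5 _
  exact (em _).elim (h1 K M ι J Ω B j jM P ε c k e S s a1 a2 a3 a4 a5)
    (h0 K M ι J Ω B j jM P ε c k e S s a1 a2 a3 a4 a5)

/-- a smoothing prime with prescribed values of two characters -/
theorem ex2 {M : Type} [Field M] [NumberField M] {j : M →+* Qb} {θ θ' ψ ψ'} {n n' : ℕ}
    (G : Gc j θ n) (k : Ic j θ ψ) (G' : Gc j θ' n') (k' : Ic j θ' ψ') {g : GQ} (m : g ∈ GK j)
    {t : ℕ} (t0 : 0 < t) :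
    ∃ (s : Ideal (𝓞 M)) (l : ℕ), Sm s l ∧ l.Coprime t ∧ ψ s = θ g ∧ ψ' s = θ' g := by
  obtain ⟨W, oW, hW⟩ := G.opn
  obtain ⟨W', oW', hW'⟩ := G'.opn
  obtain ⟨N, N0, hN⟩ := P022E.GW.Fx2.fin_ram (W ⊓ W') (oW.inter oW')
  obtain ⟨l, φ, hl, o, ⟨P, hP, lP, fr⟩, k1, k2⟩ := P022K.Cheb.exists_fr
    (O := {φ | g⁻¹ * φ ∈ GK j ⊓ (W ⊓ W')}) (g := g) (((isOpen_GK j).inter (oW.inter oW')).preimage
      (continuous_const.mul continuous_id)) (by simp) (3 * t * (discr M).natAbs * N).primeFactors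
  rw [Nat.mem_primeFactors_of_ne_zero (by simp [t0.ne', discr_ne_zero, N0]), and_iff_right hl] at o
  have mφ : φ ∈ GK j := by simpa using mul_mem m k1
  have a := P004C.Al.Sx.deg_one hP hl lP fr mφ
  have ov : Ov l P := ⟨hl, hP, lP⟩
  have u := hN P hP fun d => o (((P004C.Al.Rc.nat_mem (j := j) ov).1
    ((P022.H651.natCast_mem_below j).2 d)).mul_left _)
  refine ⟨below j P, l, Smo.sm_of hl (fun e => o (e ▸ ((dvd_mul_right _ _).mul_right _).mul_right _))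
    a fun d => o ((d.mul_left _).mul_right _),
    hl.coprime_iff_not_dvd.2 fun d => o (((d.mul_left _).mul_right _).mul_right _), ?_, ?_⟩
  · rw [k.unr l P ov (fun ⟨i, a, b, c⟩ => c (hW i a (u i b).1)) φ mφ (by rwa [a]),
      ← mul_inv_cancel_left g φ, G.mul _ m _ k1, hW _ k1 k2.1, mul_one]
  · rw [k'.unr l P ov (fun ⟨i, a, b, c⟩ => c (hW' i a (u i b).2)) φ mφ (by rwa [a]),
      ← mul_inv_cancel_left g φ, G'.mul _ m _ k1, hW' _ k1 k2.2, mul_one]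

theorem near {V : AbsoluteValue ℂ ℝ} (h : V3 V) {ζ x : ℂ} {l k : ℕ} (l1 : l % 3 = 1)
    (hx : V (x - 1) ≤ 1 / 3) (z : V (ζ - 1) ^ (2 * 3 ^ k) = 1 / 3) (z1 : V (ζ - 1) ≤ 1) :
    V (ζ - 1) ≤ V (1 - l * (1 * (ζ * x))) := by
  have p : 0 < 3 ^ k := by positivity
  have a : 1 / 3 < V (ζ - 1) := by
    by_contra! u
    have := (pow_le_pow_of_le_one (V.nonneg _) z1 (show 2 ≤ 2 * 3 ^ k by omega)).trans
      (pow_le_pow_left₀ (V.nonneg _) u 2)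
    rw [z] at this
    norm_num at this
  have b : V (l * x - 1) ≤ 1 / 3 := Ln.Bx.mul_le h.1 (by norm_num) (by
    simpa using Ln.Cfc.three_le h (n := l - 1) (by omega)) hx
  have c : V ζ ≤ 1 := by simpa using Ln.Cfc.add_le h z1 V.map_one.le
  by_contra! u
  have := Ln.Cfc.add_le h (le_max_left (V (1 - l * (1 * (ζ * x)))) (1 / 3))
    ((Ln.Cfc.mul_le b c).trans (le_max_right _ _))
  rw [show 1 - l * (1 * (ζ * x)) + (l * x - 1) * ζ = -(ζ - 1) by ring, V.map_neg] at this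
  exact this.not_gt (max_lt u a)

end O3

open O2 O3 in
/-- **the anchor at one layer** -/
theorem on3 (hA : ALX1) (hZ : ALX0) (hI : ICX) (hG : GBX) (hO : IOT) (hX : XI) (hV : LVX)
    (hT : TRP) (hN : NRM) (hB : BCH) (hL : LAY) (hF : FAM) (hP : FAP) (hH : SHP) (hE : EXA)
    (h3 : ANB) : ON3 := by
  intro e e' ρ eS eP rh nc tr tr'
  obtain ⟨κ, _, x, L, _, _, jL, fam⟩ := hF.1 _ _ rh
  obtain ⟨c4, s8, fp⟩ := (hP _ _ rh).2 κ x L jL fam
  obtain ⟨⟨ι, V, pl⟩, io⟩ := hO _ (e.ov 3 e.pm)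
  obtain ⟨T, an⟩ := h3 e e' _ rh nc eS tr tr' κ x L jL fam ι V pl
  refine ⟨T, fun b b' hT' sm B => ?_⟩
  have im := im_of b rh
  obtain ⟨⟨I, I', hd⟩, tp⟩ := hT e e' b b' eS eP sm
  obtain ⟨⟨Ω, ba⟩, hx, -⟩ := (io ι V pl).2 b.K b.j _ _ (hV e b).1 (hV e b).2.1
  choose M f1 f2 f3 f4 jM cp using fun i => hF.2 b.K (L i) b.j (jL i)
  choose β vb using fun i => (hG b.K ι _ Ω ba (M i)).1
  have gm (i g) : g ∈ GK (jM i) ↔ g ∈ b.Γ ∧ Sb (x i) (ρ g) := by rw [(cp i).gM, fam.gL]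
  have gc (i) : Gc (jM i) (fun g => th 0 (ρ g)) 2 :=
    gc_mono (fp i).2.2.2.1 fun g m => (((cp i).gM g).1 m).2
  choose ψ iψ using fun i => (hI (M i) (jM i) _ _ (gc i)).1
  obtain ⟨δ, d1, an⟩ := an b hT' im I I' _ hd Ω ba M jM cp _ β ψ vb iψ (4 * B + 1)
  obtain ⟨ab, ⟨h, h0, la⟩, s, hs, ly⟩ := hL e b ι V pl
  obtain ⟨k₀, hk₀⟩ := eventually_atTop.1 (big d1)
  refine ⟨max k₀ (4 * B + 1), fun k hk c χ z n0 nB n0' nB' => ?_⟩
  have k2 := le_of_max_le_right hk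
  obtain ⟨uc, lt, ly⟩ := ly k c χ (by omega) z
  replace lt := fun i => lt _ (x i) rh (fam.ne i) (M i) (jM i) (cp i).cK (gm i)
  have bc := fun i => hB e b (M i) (jM i) (cp i).cK k c χ z (lt i).1
  choose χM iχ using fun i => (hI (M i) (jM i) _ _ (bc i).1).1
  obtain ⟨x0, x1⟩ := hE _ _ rh b.Γ (b.T c) _ _ _ n0 n0'
  obtain ⟨q0, q1⟩ := hH _ _ rh b.K b.j im κ x (fun i => GK (jM i)) fam.ne gm fam.ex (b.T c) _ _ _
    Finset.subset_union_left uc (b.le 3 e.pm) x0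
  replace q1 := q1.trans x1
  change _ ≤ (zc b ρ k c χ * zc b (tw ρ) k c χ) ^ 2 at q1
  have q2 : (zc b ρ k c χ * zc b (tw ρ) k c χ) ^ 2 ≤ 3 ^ (4 * B) :=
    (Nat.pow_le_pow_left (Nat.mul_le_mul nB nB') 2).trans_eq (by ring)
  have z3 (i) : ∃ w : M i, w ^ 2 + w + 1 = 0 := by
    obtain ⟨w, hw⟩ := (fp i).1
    exact ⟨algebraMap (L i) (M i) w, by rw [← map_pow, ← map_add, ← map_one (algebraMap (L i) _),
      ← map_add, hw, map_zero]⟩
  choose a e0 ha al using fun i => alx hA hZ b.K (M i) ι _ Ω ba b.j (jM i) _ _ c k χ _ s (cp i).cK ab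
    (z3 i) (lt i).1 (lt i).2 trivial _ (β i) (vb i) (χM i) (ψ i) (iχ i)
    (by simpa only [th0] using iψ i) _ rfl (q0 i) (by
      refine ((Finset.single_le_prod' (fun i _ => Nat.pos_of_ne_zero (q0 i))
        (Finset.mem_univ i)).trans (q1.trans q2)).trans_lt ?_
      have := Nat.lt_pow_self (n := k) (show 1 < 3 by norm_num)
      exact Nat.pow_lt_pow_right (by norm_num) (by omega)) h h0
  have hA' : 3 ^ ∑ i, a i ≤ (zc b ρ k c χ * zc b (tw ρ) k c χ) ^ 2 := by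
    rw [← Finset.prod_pow_eq_pow_sum]
    exact (Finset.prod_le_prod' fun i _ => ha i).trans q1
  have aB : ∑ i, a i ≤ 4 * B := (Nat.pow_le_pow_iff_right (by norm_num)).1 (hA'.trans q2)
  obtain ⟨lam, hl⟩ := la (3 ^ (∑ i, e0 i + 1))
  have w3 : 3 ≤ 2 * h * 3 ^ (∑ i, e0 i + 1) := by
    have : 0 < 3 ^ ∑ i, e0 i := by positivity
    rw [pow_succ]
    nlinarith
  have v0 := (ly 1 (one_mem k) _ rfl).1
  have sp (i) : 0 ≤ sc Ω (dv ι (Jc b.j) (β i) * cf ι (Jc b.j) (ψ i)) (finrank b.K (M i))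
      (2 * h * 3 ^ (∑ i, e0 i + 1)) := by
    have := ba.pos
    have : 0 ≤ dv ι (Jc b.j) (β i) * cf ι (Jc b.j) (ψ i) := mul_nonneg (norm_nonneg _)
      (finprod_nonneg fun _ => finprod_nonneg fun _ => norm_nonneg _)
    rw [sc]
    positivity
  obtain ⟨r, hr, c2⟩ := pick c4 v0 (fun i r => mul_nonneg (sp i) (norm_nonneg _)) fun i =>
    al i _ ((Finset.single_le_sum (fun _ _ => Nat.zero_le _) (Finset.mem_univ i)).trans
      (Nat.le_succ _)) lam hl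
  obtain ⟨vi, ly⟩ := ly r hr _ rfl
  rw [(pow_left_inj₀ (V.nonneg _) (V.nonneg _) (by positivity)).1 (v0.trans vi.symm)] at c2
  have v1 : V (ze (3 * 3 ^ k) r - 1) ≤ 1 := by
    by_contra! u
    have := one_le_pow₀ (n := 2 * 3 ^ k) u.le
    linarith
  obtain ⟨ξ, xi⟩ := ((hX e b).2 (k + 1) c _ (ze (3 * 3 ^ k) r) z.ad z.sq (by
    rw [ze, ← Complex.exp_nat_mul, Complex.exp_eq_one_iff]
    exact ⟨r, by push_cast; field_simp; ring⟩)).1
  obtain ⟨lay, eu⟩ := ly ξ xi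
  have ey : ∏ i, sc Ω (dv ι (Jc b.j) (β i) * cf ι (Jc b.j) (ψ i)) (finrank b.K (M i))
      (2 * h * 3 ^ (∑ i, e0 i + 1)) * ‖ι (Ls s lam fun I => χM i I ^ r * ψ i I)‖ = _ :=
    Finset.prod_congr rfl fun i _ => by
      rw [← pl.eq, ls_eq (hs (M i)) (a := fun I => ψ i I * (ξ (Ideal.relNorm (𝓞 b.K) I) *
        lam (Ideal.relNorm (𝓞 b.K) I))) fun I => by rw [(bc i).2 _ ξ r hr (iχ i) xi]; ring]
  obtain ⟨l, l', u, u', w⟩ := an _ c _ _ ξ lay z.spl h _ lam hl w3 _ _ (fun _ _ => rfl) ey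
    (hk₀ k (le_of_max_le_left hk) _ (V.nonneg _) vi)
    ((pow_le_pow_of_le_one (V.nonneg _) v1 (by omega)).trans c2.le) (fun i w m m' =>
      eu h _ lam h0 hl (M i) (by
        rw [((fp i).2.2.2.2.2.2 b.K (M i) b.j (jM i) im (cp i)).1, ← s8]
        exact Finset.single_le_sum (f := fun i => finrank ℚ (L i)) (fun _ _ => Nat.zero_le _)
          (Finset.mem_univ i)) w m m') fun i t t0 => by
      obtain ⟨q, hq, d⟩ := Nat.exists_prime_and_dvd z.one.ne'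
      obtain ⟨Q, o⟩ := P004R.Mu.ex_pl hq
      obtain ⟨τ, m, u, u'⟩ := (lt i).1.ram q Q o d
      obtain ⟨s, l, s1, s2, s3, s4⟩ := ex2 (gc i) (iψ i) (bc i).1 (iχ i) m t0
      have l3 : (Ideal.absNorm s).Coprime 3 := s1.2.2.1.symm ▸
        (Nat.coprime_primes s1.1 Nat.prime_three).2 s1.2.1
      refine ⟨s, l, s1, s2, .inr ?_⟩
      rw [s3, rh.unr τ ⟨q, mt List.mem_toFinset.1 (z.out q hq d).1, Q, o, u⟩,
        ← (bc i).2 _ ξ r hr (iχ i) xi, s4, u', th0, show ((sg 1).valMinAbs : ℂ) = 1 by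
          rw [show (sg 1).valMinAbs = 1 by decide]; simp, show ze (3 * 3 ^ k)
            (1 : ZMod (3 * 3 ^ k)).val ^ r = ze (3 * 3 ^ k) r by
          have : Fact (1 < 3 * 3 ^ k) := ⟨by have := Nat.pow_pos (n := k) three_pos; omega⟩
          rw [ZMod.val_one, ze, ze, ← Complex.exp_nat_mul]; congr 1; push_cast; ring]
      exact near (io ι V pl).1 (s1.2.2.1 ▸ ((hN (M i)).2 (z3 i)).1 s l3)
        (Ln.An.la_near (io ι V pl).1 (fun x => ⟨(hx x).1, (hx x).2.2⟩) hl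
          (by rwa [Ideal.absNorm_relNorm])) vi v1
  refine ⟨l, l', ?_, u, tp _ _ _ u'⟩
  have : 4 * (l + l') ≤ ∑ i, a i := by
    by_contra! t
    exact (c2.trans_le w).not_ge (pow_le_pow_of_le_one (V.nonneg _) v1 t)
  refine (Nat.pow_le_pow_iff_left two_ne_zero).1 (le_trans ?_ hA')
  rw [← pow_mul]
  exact Nat.pow_le_pow_right (by norm_num) (by omega)

end Vale.Agent.P014Y.Tp
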