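import Vale.Agent.P014Y.Tp.Exa
import Vale.Agent.P014Y.Tp.Rho
import Vale.Agent.P022K.G2.Tam

/-! # P014 Y, block TOP: a non abelian representation with the same traces (helper6) -/

set_option linter.all false

open NumberField Matrix
open scoped Classical

noncomputable section

namespace Vale.Agent.P014Y.Tp

open Vale.Agent.P022 (Qb GQ)
open Vale.Agent.P022D.W (dec)
open Vale.Agent.P022K.G2
open P004F (Cc M2)
open P004F.Pr (ac)

/-- `ρ₁` has not more cocycles than `ρ` -/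
def Le (ρ₁ ρ : GQ → G3) : Prop := ∀ Γ T N χ P, Nat.card (Zc Γ T ρ N χ P) ≠ 0 →
  Nat.card (Zc Γ T ρ₁ N χ P) ≠ 0 ∧ Nat.card (Zc Γ T ρ₁ N χ P) ≤ Nat.card (Zc Γ T ρ N χ P)

namespace Sl

section

variable {R : Type} [CommRing R] {Γ D : Subgroup GQ} {T : Finset ℕ} {a b : GQ → M2 R}
  {x y : GQ → Fin 2 → R}

theorem lin (s : R) (p : Cc Γ T a x) (q : Cc Γ T a y) : Cc Γ T a (x + s • y) :=
  ⟨fun g m h n => by
    change x _ + s • y _ = _ + a g *ᵥ (x h + s • y h)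
    rw [p.coc g m h n, q.coc g m h n, mulVec_add, mulVec_smul, smul_add, add_add_add_comm]
    rfl, fun g m => by simp [p.out g m, q.out g m], by
      obtain ⟨W, o, k⟩ := p.lc
      obtain ⟨W', o', k'⟩ := q.lc
      exact ⟨W ⊓ W', o.inter o', fun w m => by simp [k w m.1, k' w m.2]⟩,
    fun g m => by simp [p.unr g m, q.unr g m]⟩

/-- a triangular action has not more cocycles than the diagonal one -/
theorem tri (h1 : ∀ g, a g 0 1 = 0) (h2 : ∀ g, a g 1 0 = 0) (h3 : ∀ g, b g 1 0 = 0)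
    (h4 : ∀ g i, b g i i = a g i i)
    (n : Nat.card {x : GQ → Fin 2 → R | Cc Γ T a x ∧ ∀ g ∈ D, x g = 0} ≠ 0) :
    Nat.card {x : GQ → Fin 2 → R | Cc Γ T b x ∧ ∀ g ∈ D, x g = 0} ≠ 0 ∧
      Nat.card {x : GQ → Fin 2 → R | Cc Γ T b x ∧ ∀ g ∈ D, x g = 0} ≤
        Nat.card {x : GQ → Fin 2 → R | Cc Γ T a x ∧ ∀ g ∈ D, x g = 0} := by
  have := Nat.finite_of_card_ne_zero n
  let B (i : Fin 2) : Set (GQ → Fin 2 → R) :=
    {x | (Cc Γ T a x ∧ ∀ g ∈ D, x g = 0) ∧ ∀ g, x g i = 0}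
  have f (i) : Finite (B i) := Finite.Set.subset
    {x : GQ → Fin 2 → R | Cc Γ T a x ∧ ∀ g ∈ D, x g = 0} fun _ m => m.1
  have := f 0
  have := f 1
  let E : M2 R := !![0, 0; 0, 1]
  have e (v : Fin 2 → R) : E *ᵥ v = ![0, v 1] := by
    ext i; fin_cases i <;> simp [E, mulVec, dotProduct]
  obtain ⟨p, q⟩ := Ex.cnt (fun x => Cc Γ T b x ∧ ∀ g ∈ D, x g = 0) (B 0) (B 1)
    ⟨⟨fun x g => E *ᵥ x g, funext fun _ => mulVec_zero _⟩,
      fun x y => funext fun g => mulVec_add E (x g) (y g)⟩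
    id ⟨⟨fun _ _ _ _ => by simp [P004F.Pr.ac_zero], fun _ _ => rfl,
      ⟨⊤, isOpen_univ, fun _ _ => rfl⟩, fun _ _ => rfl⟩, fun _ _ => rfl⟩
    (fun x y p q => ⟨by simpa [sub_eq_add_neg] using lin (-1) p.1 q.1,
      fun g m => by simp [p.2 g m, q.2 g m]⟩)
    (fun x p => ⟨⟨Ro.cc_map (fun g => by
      ext i j; fin_cases i <;> fin_cases j <;> simp [E, mul_apply, h1, h3, h4]) p.1,
      fun g m => (congrArg _ (p.2 g m)).trans (mulVec_zero _)⟩, fun g => congrFun (e _) 0⟩)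
    (fun x p z => by
      have k (g) : x g 1 = 0 := congrFun ((e _).symm.trans (congrFun z g)) 1
      refine ⟨⟨⟨fun g m h m' => (p.1.coc g m h m').trans (congrArg _ ?_), p.1.out, p.1.lc,
        p.1.unr⟩, p.2⟩, k⟩
      ext i; fin_cases i <;> simp [ac, k, h2, h3, h4])
    fun _ _ _ _ _ _ => id
  refine ⟨p, q.trans ?_⟩
  rw [← Nat.card_prod]
  refine Nat.card_le_card_of_injective (fun u => ⟨u.1.1 + u.2.1,
    by simpa using lin 1 u.1.2.1.1 u.2.2.1.1, fun g m => by simp [u.1.2.1.2 g m, u.2.2.1.2 g m]⟩)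
    fun u v h => ?_
  have k := fun g i => congrFun (congrFun (congrArg Subtype.val h) g) i
  refine Prod.ext (Subtype.ext (funext₂ fun g i => ?_)) (Subtype.ext (funext₂ fun g i => ?_)) <;>
    fin_cases i
  · exact (u.1.2.2 g).trans (v.1.2.2 g).symm
  · simpa [u.2.2.2 g, v.2.2.2 g] using k g 1
  · simpa [u.1.2.2 g, v.1.2.2 g] using k g 0
  · exact (u.2.2.2 g).trans (v.2.2.2 g).symm

end

theorem le_of {ρ a b : GQ → G3} {X : G3} (u : IsUnit X.det) (h : ∀ g, ρ g * X = X * a g)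
    (h1 : ∀ g, a g 0 1 = 0) (h2 : ∀ g, a g 1 0 = 0) (h3 : ∀ g, b g 1 0 = 0)
    (h4 : ∀ g i, b g i i = a g i i) : Le b ρ := fun Γ T N χ P => by
  rw [show Nat.card (Zc Γ T ρ N χ P) = Nat.card (Zc Γ T a N χ P) from Ro.cc_card
    (X := X.map (c3 N)) (RingHom.map_det (c3 N) X ▸ u.map _)
    (fun g => Ro.sm_map (c3 N) (uu N χ g) (h g)) _]
  exact tri (fun g => by simp [h1]) (fun g => by simp [h2]) (fun g => by simp [h3])
    fun g i => by simp [h4]

theorem dg : ∀ C : G3, C * C = 1 → C.det = -1 → ∃ X : G3, X.det = 1 ∧ C * X = X * !![1, 0; 0, -1] := by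
  decide +kernel

theorem cm : ∀ A : G3, A * !![1, 0; 0, -1] = !![1, 0; 0, -1] * A → A 0 1 = 0 ∧ A 1 0 = 0 := by
  decide +kernel

theorem det_oz {ρ : GQ → G3} {S} (r : Rh ρ S) (g : GQ) : (ρ g).det = oz 3 g :=
  pw_inj ((r.cyc g _ zt_pow).symm.trans (oz_spec g))

theorem ex_c : ∃ c : GQ, c * c = 1 ∧ oz 3 c = -1 := by
  obtain ⟨c, h⟩ := P004M.TE.exists_isConj (a := 0) (b := 1) (by norm_num)
  refine ⟨c, P004M.TE.conj_sq (a := 0) (b := 1) (by norm_num) h, ?_⟩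
  obtain ⟨φ, h⟩ := h
  have z : ∀ x : ZMod 3, x ≠ 0 → x ≠ 1 → x = -1 := by decide
  refine z _ (oz_ne c) fun e => ?_
  have k := h (zt 3)
  rw [mem_Gz'.1 (mem_Gz.2 e)] at k
  have p := (zt_prim 3).map_of_injective φ.injective
  have n := Complex.mul_conj (φ (zt 3))
  rw [← k, Complex.normSq_eq_norm_sq, p.norm'_eq_one three_ne_zero, ← pow_two] at n
  exact absurd (p.dvd_of_pow_eq_one 2 (by simpa using n)) (by decide)

end Sl

open Sl in
/-- **a non abelian representation with the same traces and not more cocycles** -/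
theorem ex_na {ρ : GQ → G3} {S : Finset ℕ} (r : Rh ρ S) : ∃ ρ₁, Rh ρ₁ S ∧
    (∃ g h, ρ₁ g * ρ₁ h ≠ ρ₁ h * ρ₁ g) ∧
    (∀ g, (ρ₁ g).trace = (ρ g).trace ∧ (ρ₁ g).det = (ρ g).det) ∧ Le ρ₁ ρ ∧ Le (tw ρ₁) (tw ρ) := by
  by_cases ab : ∃ g h, ρ g * ρ h ≠ ρ h * ρ g
  · exact ⟨ρ, r, ab, fun _ => ⟨rfl, rfl⟩, fun _ _ _ _ _ h => ⟨h, le_rfl⟩, fun _ _ _ _ _ h => ⟨h, le_rfl⟩⟩
  push Not at ab
  obtain ⟨c, cc, oc⟩ := ex_c
  obtain ⟨X, d, hX⟩ := dg (ρ c) (by rw [← r.mul, cc, r.one]) (by rw [det_oz r, oc])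
  have u : IsUnit X.det := d ▸ isUnit_one
  obtain ⟨a, ha⟩ : ∃ a : GQ → G3, ∀ g, ρ g * X = X * a g := ⟨fun g => X⁻¹ * (ρ g * X), fun g =>
    (mul_nonsing_inv_cancel_left X _ u).symm⟩
  have can {A B : G3} (h : X * A = X * B) : A = B := by
    rw [← nonsing_inv_mul_cancel_left X A u, h, nonsing_inv_mul_cancel_left X _ u]
  have am g h : a (g * h) = a g * a h := can (by
    rw [← ha, r.mul, mul_assoc, ha, ← mul_assoc, ha, mul_assoc])
  have ac : a c = !![1, 0; 0, -1] := can ((ha c).symm.trans hX)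
  have di g := cm (a g) (by
    rw [← ac, ← am, ← am]; exact can (by rw [← ha, ← ha, r.mul, r.mul, ab]))
  have a1 {g} (h : ρ g = 1) : a g = 1 := can (by rw [← ha, h, one_mul, mul_one])
  have cj g : ρ g = X * a g * X⁻¹ := by rw [← ha, mul_nonsing_inv_cancel_right X _ u]
  have dt g : a g 0 0 * a g 1 1 = oz 3 g := by
    have := congrArg det (ha g)
    rwa [det_mul, det_mul, d, mul_one, one_mul, det_oz r, det_fin_two, (di g).1, zero_mul, sub_zero,
      eq_comm] at this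
  have mu g h i : a (g * h) i i = a g i i * a h i i := by
    rw [am]; fin_cases i <;> simp [mul_apply, di]
  have z : ∀ x y o : ZMod 3, x * y = o → o ≠ 0 → x = o * y := by decide
  have t (g : GQ) : g (2 : Qb) = 2 := map_ofNat g 2
  let b (g : GQ) : G3 := !![a g 0 0, a g 1 1 * ka 3 2 g; 0, a g 1 1]
  have b1 {g} (h : ρ g = 1) (k : ka 3 2 g = 0) : b g = 1 := by
    ext i j; fin_cases i <;> fin_cases j <;> simp [b, a1 h, k]
  have bd g : (b g).det = (ρ g).det := by simp [b, det_fin_two, dt, det_oz r]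
  have b4 g i : b g i i = a g i i := by fin_cases i <;> rfl
  obtain ⟨W, o, hW⟩ := r.opn
  obtain ⟨U, l, hU⟩ := ka_lv (p := 3) (b := 2) two_ne_zero
  obtain ⟨P, ov⟩ := P004R.Mu.ex_pl Nat.prime_two
  obtain ⟨τ, i, k⟩ := ex_tau (p := 3) ov (by decide)
  refine ⟨b, ⟨b1 r.one (hU 1 (one_mem _)).2, fun g h => ?_, ⟨W ⊓ U, o.inter l.opn,
    fun g m => b1 (hW g m.1) (hU g m.2).2⟩, fun g m => b1 (r.unr g m) ?_,
    fun g w h => bd g ▸ r.cyc g w h, r.pr, r.two, r.three⟩, ⟨τ, c, fun e => ?_⟩,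
    fun g => ⟨?_, bd g⟩, le_of u ha (fun g => (di g).1) (fun g => (di g).2) (fun _ => rfl) b4,
    le_of (a := fun g => (ρ g).det • a g) u (fun g => by rw [tw, smul_mul_assoc, ha, mul_smul_comm])
      (fun g => by simp [di]) (fun g => by simp [di]) (fun g => by simp [tw, b])
      fun g i => by simp [tw, bd, b4]⟩
  · ext i j
    fin_cases i <;> fin_cases j <;> simp [b, mul_apply, mu, ka_coc two_ne_zero (t g) (t h)]
    rw [z _ _ _ (dt g) (oz_ne g)]; ring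
  · obtain ⟨q, m, Q, o', i'⟩ := m
    exact ka_int (x := 2) o' (fun e => m (e ▸ r.three))
      (p_notMem (p := 2) o' fun e => m (e ▸ r.two)) i' (t g)
  · have e1 := congrFun (congrFun e 0) 1
    have e2 := z _ _ _ (dt τ) (oz_ne τ)
    have e3 := dt τ
    rw [mem_Gz.1 (inert_gz (p := 3) ov (by decide) i)] at e2 e3
    rw [show ka 3 ((2 : ℕ) : Qb) τ = ka 3 2 τ from rfl] at k
    simp [b, mul_apply, ac, k, e2] at e1 e3
    revert e1 e3
    generalize a τ 1 1 = s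
    generalize ka 3 2 c = v
    revert s v
    decide
  · rw [cj g, trace_mul_cycle, nonsing_inv_mul X u, one_mul, trace_fin_two, trace_fin_two, b4, b4]

end Vale.Agent.P014Y.Tp
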