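import Vale.Agent.P014Y.Tp.Defs

/-!
# P014 Y, block TOP of the anchor at three: the rows without a curve
-/

set_option linter.all false

open NumberField Module Matrix PowerSeries
open scoped Classical Pointwise

noncomputable section

namespace Vale.Agent.P014Y.Tp

open Vale.Agent.P022 (Qb GQ GK below)
open Vale.Agent.P027M.M (ze)
open Vale.Agent.P022D.W (dec)
open Vale.Agent.P022K.G2 (In)
open P004F (Cc)
open P004C.Al (Gc Ic Ls)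
open C (Base Vb dv sc La)

/-- the character `(1 + T) ^ χ` -/
def uu (N : ℕ) (χ : GQ → ℕ) (g : GQ) : Rb N := (Ideal.Quotient.mk _ (1 + X) : Rb N) ^ χ g

/-- constants -/
def c3 (N : ℕ) : ZMod 3 →+* Rb N := (Ideal.Quotient.mk _).comp PowerSeries.C

/-- it is a character of `Γ` with open kernel, unramified outside `T` -/
structure Uc (Γ : Subgroup GQ) (T : Finset ℕ) (N : ℕ) (χ : GQ → ℕ) : Prop where
  one : uu N χ 1 = 1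
  mul : ∀ g ∈ Γ, ∀ h ∈ Γ, uu N χ (g * h) = uu N χ g * uu N χ h
  opn : ∃ W : Subgroup GQ, IsOpen (W : Set GQ) ∧ ∀ g ∈ Γ, g ∈ W → uu N χ g = 1
  unr : ∀ g ∈ In (T : Set ℕ), g ∈ Γ → uu N χ g = 1

/-- the cocycles with values in `V ⊗ 𝔽₃[T] / T ^ N` which vanish at `P` -/
def Zc (Γ : Subgroup GQ) (T : Finset ℕ) (ρ : GQ → G3) (N : ℕ) (χ : GQ → ℕ) (P : Ideal (𝓞 Qb)) :
    Set (GQ → Fin 2 → Rb N) :=
  {x | Cc Γ T (fun g => uu N χ g • (ρ g).map (c3 N)) x ∧ ∀ g ∈ dec P, x g = 0}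

/-- the cocycles with values in the odd functions of a vector and an orientation -/
structure Z8 (Γ : Subgroup GQ) (T : Finset ℕ) (ρ : GQ → G3) (N : ℕ) (χ : GQ → ℕ)
    (P : Ideal (𝓞 Qb)) (z : GQ → (Fin 2 → ZMod 3) → ZMod 3 → Rb N) : Prop where
  odd : ∀ g y o, z g (-y) o = -z g y o
  zero : ∀ g y, z g y 0 = 0
  coc : ∀ g ∈ Γ, ∀ h ∈ Γ, ∀ y o,
    z (g * h) y o = z g y o + uu N χ g * z h (ρ g⁻¹ *ᵥ y) ((ρ g⁻¹).det * o)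
  off : ∀ g ∉ Γ, z g = 0
  lc : ∃ W : Subgroup GQ, IsOpen (W : Set GQ) ∧ ∀ w ∈ W, z w = 0
  unr : ∀ g ∈ In (T : Set ℕ), z g = 0
  loc : ∀ g ∈ dec P, z g = 0

/-- the faithful characters of the layer -/
def Fa (k : ℕ) : Finset ℕ := (Finset.range (3 * 3 ^ k)).filter fun i => ¬ 3 ∣ i

/-! ### rows -/

/-- the fields exist -/
def FAM : Prop := (∀ ρ S, Rh ρ S → ∃ (κ : Type) (_ : Fintype κ) (x : κ → Fin 2 → ZMod 3)
    (L : κ → Type) (_ : ∀ i, Field (L i)) (_ : ∀ i, NumberField (L i)) (jL : ∀ i, L i →+* Qb),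
    Fam ρ x jL) ∧
  ∀ (K L : Type) [Field K] [NumberField K] [Field L] [NumberField L] (j : K →+* Qb)
    (jL : L →+* Qb), ∃ (M : Type) (_ : Field M) (_ : NumberField M) (_ : Algebra K M)
      (_ : Algebra L M) (jM : M →+* Qb), Cp j jL jM

/-- degrees, roots of unity, characters -/
def FAP : Prop := ∀ ρ S, Rh ρ S → Rh (tw ρ) S ∧ ∀ (κ : Type) [Fintype κ] (x : κ → Fin 2 → ZMod 3)
  (L : κ → Type) [∀ i, Field (L i)] [∀ i, NumberField (L i)] (jL : ∀ i, L i →+* Qb), Fam ρ x jL →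
  Fintype.card κ ≤ 4 ∧ ∑ i, finrank ℚ (L i) = 8 ∧ ∀ i, (∃ w : L i, w ^ 2 + w + 1 = 0) ∧
    IsTotallyComplex (L i) ∧ (∀ n, Gc (jL i) (fun g => th n (ρ g)) 6) ∧
    Gc (jL i) (fun g => th 0 (ρ g)) 2 ∧
    (∀ g ∈ GK (jL i), sg (ρ g) ≠ 0 ∧ ∀ h ∈ GK (jL i), sg (ρ (g * h)) = sg (ρ g) * sg (ρ h)) ∧
    (∀ l : ℕ, l.Prime → (l : ℤ) ∣ discr (L i) → l ∈ S) ∧
    ∀ (K M : Type) [Field K] [NumberField K] [Field M] [NumberField M] [Algebra K M]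
      [Algebra (L i) M] (j : K →+* Qb) (jM : M →+* Qb), Im j ρ → Cp j (jL i) jM →
      finrank K M = finrank ℚ (L i) ∧ finrank (L i) M = finrank ℚ K

/-- **induction from the fields of the lines** -/
def SHP : Prop := ∀ ρ S, Rh ρ S → ∀ (K : Type) [Field K] [NumberField K] (j : K →+* Qb), Im j ρ →
  ∀ (κ : Type) [Fintype κ] (x : κ → Fin 2 → ZMod 3) (Γ : κ → Subgroup GQ), (∀ i, x i ≠ 0) →
  (∀ i g, g ∈ Γ i ↔ g ∈ GK j ∧ Sb (x i) (ρ g)) →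
  (∀ y, y ≠ 0 → ∃! i, ∃ g, (ρ g).det = 1 ∧ (ρ g *ᵥ x i = y ∨ ρ g *ᵥ x i = -y)) →
  ∀ (T : Finset ℕ) N χ P, S ⊆ T → Uc (GK j) T N χ → dec P ≤ GK j →
  Nat.card {z // Z8 (GK j) T ρ N χ P z} ≠ 0 →
  (∀ i, nq (GK j) (Γ i) T (ax N (fun g => sg (ρ g)) χ) P ≠ 0) ∧
    ∏ i, nq (GK j) (Γ i) T (ax N (fun g => sg (ρ g)) χ) P ≤ Nat.card {z // Z8 (GK j) T ρ N χ P z}

/-- **the filtration of the odd functions** -/
def EXA : Prop := ∀ ρ S, Rh ρ S → ∀ (Γ : Subgroup GQ) (T : Finset ℕ) N χ P,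
  Nat.card (Zc Γ T ρ N χ P) ≠ 0 → Nat.card (Zc Γ T (tw ρ) N χ P) ≠ 0 →
  Nat.card {z // Z8 Γ T ρ N χ P z} ≠ 0 ∧ Nat.card {z // Z8 Γ T ρ N χ P z} ≤
    (Nat.card (Zc Γ T ρ N χ P) * Nat.card (Zc Γ T (tw ρ) N χ P)) ^ 2

/-- **the export of the block AL**; `nt` says if the sign character is trivial or not -/
def ALX (nt : Prop → Prop) : Prop := ∀ (K M : Type) [Field K] [NumberField K] [Field M]
  [NumberField M] [Algebra K M] (ι : ℂ →+* ℂ_[3]) (J : K →+* ℂ) (Ω : ℝ), Base ι J Ω →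
  ∀ (j : K →+* Qb) (jM : M →+* Qb) P (ε : GQ → ZMod 3) c k e S s,
  (∀ x, jM (algebraMap K M x) = j x) → Ab ι J j P → (∃ w : M, w ^ 2 + w + 1 = 0) → Lw jM c k e →
  Ts ι J jM ε c k e S s → nt (∃ g ∈ GK jM, ε g ≠ 1) → ∀ (n : ℕ) (b : Basis (Fin n) K M),
  Vb ι J b → ∀ χ ψ, Ic jM (fun g => ze (3 * 3 ^ k) (e g).val) χ →
  Ic jM (fun g => ((ε g).valMinAbs : ℂ)) ψ → ∀ N : ℕ,
  N = nq (GK j) (GK jM) (S ∪ c.primeFactors) (ax (3 * 3 ^ k) ε fun g => (e g).val) P →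
  N ≠ 0 → N < 3 ^ (2 * 3 ^ k) → ∀ h : ℕ, 0 < h →
  ∃ a e0 : ℕ, 3 ^ a ≤ N ∧ ∀ e', e0 ≤ e' → ∀ lam, La J h (3 ^ e') lam →
    4 < 5 * (3 ^ a * ∏ i ∈ Fa k, sc Ω (dv ι J b * cf ι J ψ) n (2 * h * 3 ^ e') *
      ‖ι (Ls s lam fun I => χ I ^ i * ψ I)‖)

/-- the sign character is not trivial -/
abbrev ALX1 : Prop := ALX id

/-- the sign character is trivial -/
abbrev ALX0 : Prop := ALX Not

end Vale.Agent.P014Y.Tp
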