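import Vale.Agent.P014Y.C.Defs
import Vale.Agent.P004C.Al.St2

/-!
# P014 Y, block TOP of the anchor at three: words
-/

set_option linter.all false

open NumberField Module Matrix PowerSeries
open scoped Classical

noncomputable section

namespace Vale.Agent.P014Y.Tp

open Vale.Agent.P022 (Qb GQ GK below)
open Vale.Agent.P027M.S (Inert)
open Vale.Agent.P027M.M (ze)
open Vale.Agent.P022D.W (dec)
open Vale.Agent.P022E.GW (Ov)
open Vale.Agent.P022K.G2 (In)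
open C (Av)

abbrev G3 : Type := Matrix (Fin 2) (Fin 2) (ZMod 3)

/-- a representation modulo three with cyclotomic determinant, unramified outside `S` -/
structure Rh (ρ : GQ → G3) (S : Finset ℕ) : Prop where
  one : ρ 1 = 1
  mul : ∀ g h, ρ (g * h) = ρ g * ρ h
  opn : ∃ W : Subgroup GQ, IsOpen (W : Set GQ) ∧ ∀ g ∈ W, ρ g = 1
  unr : ∀ g ∈ In (S : Set ℕ), ρ g = 1
  cyc : ∀ (g : GQ) (w : Qb), w ^ 3 = 1 → g w = w ^ (ρ g).det.val
  pr : ∀ p ∈ S, p.Prime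
  two : 2 ∈ S
  three : 3 ∈ S

/-- the twist by the determinant -/
def tw (ρ : GQ → G3) (g : GQ) : G3 := (ρ g).det • ρ g

/-- `g` has determinant one and fixes the line of `x` -/
def Sb (x : Fin 2 → ZMod 3) (g : G3) : Prop := g.det = 1 ∧ (g *ᵥ x = x ∨ g *ᵥ x = -x)

/-- the sign `ε` of `g = ε u`, `u` unipotent -/
def sg (g : G3) : ZMod 3 := -g.trace

/-- the parameter `t` of `u = 1 + t N`, `N y = det (x, y) x` -/
def un (g : G3) : ZMod 3 := sg g * if g 0 1 = 0 then -g 1 0 else g 0 1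

/-- the character `ε η ^ i` -/
def th (i : ℕ) (g : G3) : ℂ := (sg g).valMinAbs * ze 3 (i * (un g).val : ℕ)

/-- the trace of the lift to `ℤ[s]`, `s ^ 2 = -2`; it reduces to the trace modulo `s - 1` -/
def ts (s : ℂ) (g : G3) : ℂ :=
  (if g.det = 1 then if g = 1 ∨ g = -1 then -2 else 1 else s) * g.trace.valMinAbs

/-- the fields of the orbits of lines -/
structure Fam (ρ : GQ → G3) {κ : Type} (x : κ → Fin 2 → ZMod 3) {L : κ → Type} [∀ i, Field (L i)]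
    (jL : ∀ i, L i →+* Qb) : Prop where
  ne : ∀ i, x i ≠ 0
  gL : ∀ i g, g ∈ GK (jL i) ↔ Sb (x i) (ρ g)
  ex : ∀ y, y ≠ 0 → ∃! i, ∃ g, (ρ g).det = 1 ∧ (ρ g *ᵥ x i = y ∨ ρ g *ᵥ x i = -y)

/-- `M` is the compositum of `K` and `L` -/
structure Cp {K L M : Type} [Field K] [Field L] [Field M] [Algebra K M] [Algebra L M]
    (j : K →+* Qb) (jL : L →+* Qb) (jM : M →+* Qb) : Prop where
  cK : ∀ y, jM (algebraMap K M y) = j y
  cL : ∀ y, jM (algebraMap L M y) = jL y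
  gM : ∀ g, g ∈ GK jM ↔ g ∈ GK j ∧ g ∈ GK jL

/-- the group of `K` has the same image -/
def Im {K : Type} [Field K] (j : K →+* Qb) (ρ : GQ → G3) : Prop := ∀ g, ∃ h ∈ GK j, ρ h = ρ g

/-- `𝔽₃[T] / T ^ N` -/
abbrev Rb (N : ℕ) : Type := PowerSeries (ZMod 3) ⧸ Ideal.span {(X : PowerSeries (ZMod 3)) ^ N}

/-- the character `ε (1 + T) ^ χ` -/
def ax (N : ℕ) (ε : GQ → ZMod 3) (χ : GQ → ℕ) (g : GQ) : Rb N :=
  Ideal.Quotient.mk _ (C (ε g) * (1 + X) ^ χ g)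

/-- cocycles of `Γ`, unramified outside `T`, with trivialisations at the conjugates of `P` -/
structure Zq {R : Type} [CommRing R] (Γ₀ Γ : Subgroup GQ) (T : Finset ℕ) (a : GQ → R)
    (P : Ideal (𝓞 Qb)) (F : GQ → R) : Prop where
  coc : ∀ h ∈ Γ, ∀ g ∈ Γ₀, F (h * g) = F h + a h * F g
  off : ∀ g ∉ Γ₀, F g = 0
  lc : ∃ W : Subgroup GQ, IsOpen (W : Set GQ) ∧ ∀ g, ∀ w ∈ W, F (g * w) = F g
  unr : ∀ g ∈ In (T : Set ℕ), g ∈ Γ → F g = 0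
  loc : ∀ g ∈ Γ₀, ∀ d ∈ dec P, d ∈ Γ₀ → F (g * d) = F g

/-- **their number** (zero if infinite) -/
def nq {R : Type} [CommRing R] (Γ₀ Γ : Subgroup GQ) (T : Finset ℕ) (a : GQ → R)
    (P : Ideal (𝓞 Qb)) : ℕ := Nat.card {F // Zq Γ₀ Γ T a P F}

section

variable {K : Type} [Field K] [NumberField K] (ι : ℂ →+* ℂ_[3]) (J : K →+* ℂ)

/-- `P` lies above `v` -/
def Ab (j : K →+* Qb) (P : Ideal (𝓞 Qb)) : Prop :=
  Ov 3 P ∧ ∀ x : 𝓞 K, x ∈ below j P ↔ ‖ι (J x)‖ < 1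

variable {M : Type} [Field M] [NumberField M]

/-- the size of the norm of the primes above `v` at which `ψ` vanishes -/
def cf [Algebra K M] (ψ : Ideal (𝓞 M) → ℂ) : ℝ :=
  ∏ᶠ w ∈ {w : Ideal (𝓞 M) | Av ι J w ∧ ψ w = 0}, ‖(Ideal.absNorm w : ℂ_[3])‖

/-- a cyclic layer of degree `3 * 3 ^ k`, totally ramified at the primes of `c` -/
structure Lw (j : M →+* Qb) (c k : ℕ) (e : GQ → ZMod (3 * 3 ^ k)) : Prop where
  cop : c.Coprime 6
  one : 1 < c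
  add : ∀ g ∈ GK j, ∀ h ∈ GK j, e (g * h) = e g + e h
  opn : ∃ W : Subgroup GQ, IsOpen (W : Set GQ) ∧ ∀ g ∈ GK j, g ∈ W → e g = 0
  unr : ∀ l P, Ov l P → ¬ l ∣ c → ∀ g ∈ GK j, Inert P g → e g = 0
  ram : ∀ l P, Ov l P → l ∣ c → ∃ t ∈ GK j, Inert P t ∧ e t = 1

/-- a sign character of the group of `M`; the primes of `s` are inert in the last step -/
structure Ts [Algebra K M] (j : M →+* Qb) (ε : GQ → ZMod 3) (c k : ℕ) (e : GQ → ZMod (3 * 3 ^ k))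
    (S : Finset ℕ) (s : 𝓞 K) : Prop where
  mul : ∀ g ∈ GK j, ∀ h ∈ GK j, ε (g * h) = ε g * ε h
  ne : ∀ g ∈ GK j, ε g ≠ 0
  opn : ∃ W : Subgroup GQ, IsOpen (W : Set GQ) ∧ ∀ g ∈ GK j, g ∈ W → ε g = 1
  three : 3 ∈ S
  cop : ∀ l ∈ S, ¬ l ∣ c
  unr : ∀ g ∈ In (S : Set ℕ), g ∈ GK j → ε g = 1
  uni : ‖ι (J s)‖ = 1
  ine : ∀ l Q, Ov l Q → s ∈ below (j.comp (algebraMap K M)) Q →
    l ∈ S ∧ ∃ g ∈ dec Q, g ∈ GK j ∧ ε g = 1 ∧ e g = 3 ^ k

end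

end Vale.Agent.P014Y.Tp
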