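import Vale.Agent.P014Y.Tp.All
import Vale.Agent.P014Y.Tp.On3
import Vale.Agent.P014Y.Ln.Nrm

/-!
# P014 Y, block TOP: the analytic lower bound for an abstract residual representation
-/

namespace Vale.Agent.P014Y.Tp

theorem on3_all (hA : ALX1) (hZ : ALX0) (h3 : Ln.ANB) : ON3 :=
  on3 hA hZ P004C.Al.icx C.Al.gbx Ln.iot Ln.xi0 Ln.lvx trp Ln.nrm (bch P004K.x_rc2)
    (lay P004K.x_rc1 P004K.x_rc2 Ln.iot Ln.lvx) fam fap shp exa h3

end Vale.Agent.P014Y.Tp
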