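import Vale.Agent.P014Y.Tp.St
import Vale.Agent.P014Y.C.Al.Amb

/-!
# P014 Y, block TOP: the anchor at one layer
-/

set_option linter.all false

open NumberField Module Matrix Filter Topology
open scoped Classical

noncomputable section

namespace Vale.Agent.P014Y.Tp

open Vale.Agent.P022 (Qb GQ GK below)
open Vale.Agent.P027M.M (ze)
open P004C.Al (Gc Ic Ls ICX)
open P004C.Ln (Jc Xi Dp)
open C (Base Vb dv sc La Sm)
open C.Al (GBX)
open F (Crv Fld)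
open Ln (Pl Hd An0 Lay tS IOT XI LVX)
open Top (Pr Sur Par)

namespace O2

theorem card_fa (k : ℕ) : (Fa k).card = 2 * 3 ^ k := by
  have a := Finset.card_filter_add_card_filter_not (s := Finset.range (3 * 3 ^ k)) fun i => 3 ∣ i
  have b : ((Finset.range (3 * 3 ^ k)).filter fun i => 3 ∣ i).card = 3 ^ k := by
    rw [show (Finset.range (3 * 3 ^ k)).filter (fun i => 3 ∣ i) =
      (Finset.range (3 ^ k)).image (3 * ·) from ?_,
      Finset.card_image_of_injective _ (mul_right_injective₀ three_ne_zero), Finset.card_range]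
    ext i
    simp only [Finset.mem_filter, Finset.mem_range, Finset.mem_image]
    exact ⟨fun ⟨h, c, e⟩ => ⟨c, by omega, e.symm⟩, fun ⟨c, h, e⟩ => ⟨by omega, c, e.symm⟩⟩
  rw [Finset.card_range, b] at a
  rw [Fa]
  omega

theorem one_mem (k : ℕ) : 1 ∈ Fa k := by
  have : 0 < 3 ^ k := by positivity
  simp only [Fa, Finset.mem_filter, Finset.mem_range]
  omega

theorem big {δ : ℝ} (h : δ < 1) :
    ∀ᶠ k in atTop, ∀ v : ℝ, 0 ≤ v → v ^ (2 * 3 ^ k) = 1 / 3 → δ < v := by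
  obtain h0 | h0 := lt_or_ge δ 0
  · exact .of_forall fun k v hv _ => h0.trans_le hv
  filter_upwards [((tendsto_pow_atTop_nhds_zero_of_lt_one h0 h).comp
    (tendsto_pow_atTop_atTop_of_one_lt (show 1 < 3 by norm_num))).eventually_lt_const
    (show (0 : ℝ) < 1 / 3 by positivity)] with k hk v hv e
  refine lt_of_pow_lt_pow_left₀ (2 * 3 ^ k) hv ?_
  rw [e]
  exact (pow_le_pow_of_le_one h0 h.le (show 3 ^ k ≤ 2 * 3 ^ k by omega)).trans_lt hk

/-- one of the characters is good -/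
theorem pick {κ : Type} [Fintype κ] (hκ : Fintype.card κ ≤ 4) {k : ℕ} {a : κ → ℕ} {v : ℝ}
    {Y : κ → ℕ → ℝ} (h : v ^ (2 * 3 ^ k) = 1 / 3) (hY : ∀ i r, 0 ≤ Y i r)
    (l : ∀ i, 4 < 5 * (3 ^ a i * ∏ r ∈ Fa k, Y i r)) :
    ∃ r ∈ Fa k, v ^ (∑ i, a i + 1) < ∏ i, Y i r := by
  by_contra! c
  have p := Finset.prod_le_prod (s := Fa k) (fun r _ => Finset.prod_nonneg fun i _ => hY i r) c
  rw [Finset.prod_const, card_fa, ← pow_mul, mul_comm, pow_mul, h, Finset.prod_comm] at p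
  have q := Finset.prod_le_prod (s := Finset.univ) (f := fun _ : κ => (4 / 5 : ℝ))
    (g := fun i => 3 ^ a i * ∏ r ∈ Fa k, Y i r) (fun _ _ => by norm_num)
    fun i _ => by linarith [l i]
  rw [Finset.prod_const, Finset.card_univ, Finset.prod_mul_distrib, Finset.prod_pow_eq_pow_sum]
    at q
  have w := (pow_le_pow_of_le_one (by norm_num) (by norm_num) hκ).trans
    (q.trans (mul_le_mul_of_nonneg_left p (by positivity)))
  rw [pow_succ (1 / 3 : ℝ), ← mul_assoc, ← mul_pow] at w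
  norm_num at w

theorem ls_eq {K M : Type} [Field K] [NumberField K] [Field M] [NumberField M] [Algebra K M]
    {s : 𝓞 K} {t : Ideal (𝓞 M)}
    (hs : ∀ I, I ⊔ Ideal.span {algebraMap (𝓞 K) (𝓞 M) s} = ⊤ ↔ I ⊔ t = ⊤) {lam} {η a}
    (h : ∀ I, η I * lam (Ideal.relNorm (𝓞 K) I) = a I) : Ls s lam η = ∑' I, Dp t a I :=
  tsum_congr fun I => if_ctx_congr (hs I) (fun _ => h I) fun _ => rfl

theorem th0 (g : G3) : th 0 g = ((sg g).valMinAbs : ℂ) := by simp [th, ze]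

theorem sg_neg : sg (-1) = -1 := by decide

theorem sb_neg (x : Fin 2 → ZMod 3) : Sb x (-1) := ⟨by decide, .inr (by simp [neg_mulVec])⟩

theorem gc_mono {L M : Type} [Field L] [Field M] {jL : L →+* Qb} {jM : M →+* Qb} {θ n}
    (h : Gc jL θ n) (le : GK jM ≤ GK jL) : Gc jM θ n :=
  ⟨fun g a k b => h.mul g (le a) k (le b), h.pos, fun g a => h.pow g (le a),
    h.opn.imp fun _ w => ⟨w.1, fun g a => w.2 g (le a)⟩⟩

end O2

open O2 in
/-- **the anchor at one layer** -/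
theorem on2 (hA : ALX1) (hI : ICX) (hG : GBX) (hO : IOT) (hX : XI) (hV : LVX) (hR : RHO)
    (hT : TRP) (hS : SMO) (hB : BCH) (hL : LAY) (hF : FAM) (hP : FAP) (hH : SHP) (hE : EXA)
    (h3 : ANA) : ON2 := by
  intro e e' pr ⟨⟨g₀, hg₀⟩, nc⟩
  obtain ⟨rh, tr, hb⟩ := hR.1 e
  obtain ⟨tr', hb'⟩ := hR.2 e e' pr
  obtain ⟨κ, _, x, L, _, _, jL, fam⟩ := hF.1 _ _ rh
  obtain ⟨c4, s8, fp⟩ := (hP _ _ rh).2 κ x L jL fam
  obtain ⟨⟨ι, V, pl⟩, io⟩ := hO _ (e.ov 3 e.pm)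
  obtain ⟨T, an⟩ := h3 e e' _ rh nc pr.S tr tr' κ x L jL fam ι V pl
  refine ⟨T, fun b b' hT' sm B => ?_⟩
  obtain ⟨im, zb⟩ := hb b
  obtain ⟨⟨I, I', hd⟩, tp⟩ := hT e e' b b' pr.S pr.P sm
  obtain ⟨⟨Ω, ba⟩, -⟩ := (io ι V pl).2 b.K b.j _ _ (hV e b).1 (hV e b).2.1
  choose M f1 f2 f3 f4 jM cp using fun i => hF.2 b.K (L i) b.j (jL i)
  choose β vb using fun i => (hG b.K ι _ Ω ba (M i)).1
  have gm (i g) : g ∈ GK (jM i) ↔ g ∈ b.Γ ∧ Sb (x i) (rho e g) := by rw [(cp i).gM, fam.gL]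
  have gc (i) : Gc (jM i) (fun g => th 0 (rho e g)) 2 :=
    gc_mono (fp i).2.2.2.1 fun g m => (((cp i).gM g).1 m).2
  choose ψ iψ using fun i => (hI (M i) (jM i) _ _ (gc i)).1
  obtain ⟨g₃, m₃, hg₃⟩ := im g₀
  rw [hg₀] at hg₃
  have m0 (i) : g₃ ∈ GK (jM i) := (gm i _).2 ⟨m₃, hg₃ ▸ sb_neg _⟩
  have so (i) := hS (M i) (jM i) _ _ (gc i) ⟨g₃, m0 i, by
    rw [hg₃, th0, sg_neg, show (-1 : ZMod 3).valMinAbs = -1 by decide]; norm_num⟩ (iψ i)
  obtain ⟨δ, d1, an⟩ := an b hT' im I I' _ hd Ω ba M jM cp _ β ψ vb iψ (fun i => (so i).2)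
    (4 * B + 1)
  obtain ⟨ab, ⟨h, h0, la⟩, s, hs, ly⟩ := hL e b ι V pl
  obtain ⟨k₀, hk₀⟩ := eventually_atTop.1 (big d1)
  refine ⟨max k₀ (4 * B + 1), fun k hk c χ z n0 nB n0' nB' => ?_⟩
  have k2 := le_of_max_le_right hk
  obtain ⟨uc, lt, ly⟩ := ly k c χ (by omega) z
  replace lt := fun i => lt _ (x i) rh (fam.ne i) (M i) (jM i) (cp i).cK (gm i)
  have bc := fun i => hB e b (M i) (jM i) (cp i).cK k c χ z (lt i).1
  choose χM iχ using fun i => (hI (M i) (jM i) _ _ (bc i).1).1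
  have e1 := zb (3 * 3 ^ k) c fun g => (χ g).val
  have e2 := hb' b b' sm (3 * 3 ^ k) c fun g => (χ g).val
  obtain ⟨x0, x1⟩ := hE _ _ rh b.Γ (b.T c) _ _ _ (e1.symm.trans_ne n0) (e2.symm.trans_ne n0')
  obtain ⟨q0, q1⟩ := hH _ _ rh b.K b.j im κ x (fun i => GK (jM i)) fam.ne gm fam.ex (b.T c) _ _ _
    Finset.subset_union_left uc (b.le 3 e.pm) x0
  replace q1 := q1.trans x1
  rw [← e1, ← e2] at q1
  change _ ≤ (nz b (3 * 3 ^ k) c χ * nz b' (3 * 3 ^ k) c χ) ^ 2 at q1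
  have q2 : (nz b (3 * 3 ^ k) c χ * nz b' (3 * 3 ^ k) c χ) ^ 2 ≤ 3 ^ (4 * B) :=
    (Nat.pow_le_pow_left (Nat.mul_le_mul nB nB') 2).trans_eq (by ring)
  choose a e0 ha al using fun i => hA b.K (M i) ι _ Ω ba b.j (jM i) _ _ c k χ _ s (cp i).cK ab
    (by
      obtain ⟨w, hw⟩ := (fp i).1
      exact ⟨algebraMap (L i) (M i) w, by rw [← map_pow, ← map_add, ← map_one (algebraMap (L i) _),
        ← map_add, hw, map_zero]⟩)
    (lt i).1 (lt i).2 ⟨g₃, m0 i, by rw [hg₃, sg_neg]; decide⟩ _ (β i) (vb i) (χM i) (ψ i) (iχ i)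
    (by simpa only [th0] using iψ i) _ rfl (q0 i) (by
      refine ((Finset.single_le_prod' (fun i _ => Nat.pos_of_ne_zero (q0 i))
        (Finset.mem_univ i)).trans (q1.trans q2)).trans_lt ?_
      have := Nat.lt_pow_self (n := k) (show 1 < 3 by norm_num)
      exact Nat.pow_lt_pow_right (by norm_num) (by omega)) h h0
  have hA' : 3 ^ ∑ i, a i ≤ (nz b (3 * 3 ^ k) c χ * nz b' (3 * 3 ^ k) c χ) ^ 2 := by
    rw [← Finset.prod_pow_eq_pow_sum]
    exact (Finset.prod_le_prod' fun i _ => ha i).trans q1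
  have aB : ∑ i, a i ≤ 4 * B := (Nat.pow_le_pow_iff_right (by norm_num)).1 (hA'.trans q2)
  obtain ⟨lam, hl⟩ := la (3 ^ (∑ i, e0 i + 1))
  have w3 : 3 ≤ 2 * h * 3 ^ (∑ i, e0 i + 1) := by
    have : 0 < 3 ^ ∑ i, e0 i := by positivity
    rw [pow_succ]
    nlinarith
  have v0 := (ly 1 (one_mem k) _ rfl).1
  have sp (i) : 0 ≤ sc Ω (dv ι (Jc b.j) (β i) * cf ι (Jc b.j) (ψ i)) (finrank b.K (M i))
      (2 * h * 3 ^ (∑ i, e0 i + 1)) := by
    have := ba.pos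
    have : 0 ≤ dv ι (Jc b.j) (β i) * cf ι (Jc b.j) (ψ i) := mul_nonneg (norm_nonneg _)
      (finprod_nonneg fun _ => finprod_nonneg fun _ => norm_nonneg _)
    rw [sc]
    positivity
  obtain ⟨r, hr, c2⟩ := pick c4 v0 (fun i r => mul_nonneg (sp i) (norm_nonneg _)) fun i =>
    al i _ ((Finset.single_le_sum (fun _ _ => Nat.zero_le _) (Finset.mem_univ i)).trans
      (Nat.le_succ _)) lam hl
  obtain ⟨vi, ly⟩ := ly r hr _ rfl
  rw [(pow_left_inj₀ (V.nonneg _) (V.nonneg _) (by positivity)).1 (v0.trans vi.symm)] at c2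
  have v1 : V (ze (3 * 3 ^ k) r - 1) ≤ 1 := by
    by_contra! u
    have := one_le_pow₀ (n := 2 * 3 ^ k) u.le
    linarith
  obtain ⟨ξ, xi⟩ := ((hX e b).2 (k + 1) c _ (ze (3 * 3 ^ k) r) z.ad z.sq (by
    rw [ze, ← Complex.exp_nat_mul, Complex.exp_eq_one_iff]
    exact ⟨r, by push_cast; field_simp; ring⟩)).1
  obtain ⟨lay, eu⟩ := ly ξ xi
  have ey : ∏ i, sc Ω (dv ι (Jc b.j) (β i) * cf ι (Jc b.j) (ψ i)) (finrank b.K (M i))
      (2 * h * 3 ^ (∑ i, e0 i + 1)) * ‖ι (Ls s lam fun I => χM i I ^ r * ψ i I)‖ = _ :=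
    Finset.prod_congr rfl fun i _ => by
      rw [← pl.eq, ls_eq (hs (M i)) (a := fun I => ψ i I * (ξ (Ideal.relNorm (𝓞 b.K) I) *
        lam (Ideal.relNorm (𝓞 b.K) I))) fun I => by rw [(bc i).2 _ ξ r hr (iχ i) xi]; ring]
  obtain ⟨l, l', u, u', w⟩ := an _ c _ _ ξ lay z.spl h _ lam hl w3 _ _ (fun _ _ => rfl) ey
    (hk₀ k (le_of_max_le_left hk) _ (V.nonneg _) vi)
    ((pow_le_pow_of_le_one (V.nonneg _) v1 (by omega)).trans c2.le) fun i w m m' =>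
      eu h _ lam h0 hl (M i) (by
        rw [((fp i).2.2.2.2.2.2 b.K (M i) b.j (jM i) im (cp i)).1, ← s8]
        exact Finset.single_le_sum (f := fun i => finrank ℚ (L i)) (fun _ _ => Nat.zero_le _)
          (Finset.mem_univ i)) w m m'
  refine ⟨l, l', ?_, u, tp _ _ _ u'⟩
  have : 4 * (l + l') ≤ ∑ i, a i := by
    by_contra! t
    exact (c2.trans_le w).not_ge (pow_le_pow_of_le_one (V.nonneg _) v1 t)
  refine (Nat.pow_le_pow_iff_left two_ne_zero).1 (le_trans ?_ hA')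
  rw [← pow_mul]
  exact Nat.pow_le_pow_right (by norm_num) (by omega)

end Vale.Agent.P014Y.Tp
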