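import Vale.Agent.P014Y.Tp.Smo
import Vale.Agent.P014Y.Tp.Lay

/-!
# P014 Y, block TOP: smoothing primes for any sign character
-/

set_option linter.all false

open NumberField

noncomputable section

namespace Vale.Agent.P014Y.Tp

open Vale.Agent.P022 Vale.Agent.P022.H916
open Vale.Agent.P027M.M (ze)
open Vale.Agent.P022E.GW (Ov)
open P004C.Al (Gc Ic Rm)
open P004C.Ln (Jc)
open C (Sm La)
open F (Crv Fld)
open Ln (Pl V3 IOT LVX)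

namespace S3

variable {M : Type} [Field M] [NumberField M] {j : M →+* Qb} {θ θ' : GQ → ℂ}
  {ψ ψ' : Ideal (𝓞 M) → ℂ}

/-- a smoothing prime with two prescribed values -/
theorem ex {n n' : ℕ} (G : Gc j θ n) (k : Ic j θ ψ) (G' : Gc j θ' n') (k' : Ic j θ' ψ') {g : GQ}
    (m : g ∈ GK j) {t : ℕ} (t0 : 0 < t) :
    ∃ (s : Ideal (𝓞 M)) (l : ℕ), Sm s l ∧ l.Coprime t ∧ ψ s = θ g ∧ ψ' s = θ' g := by
  obtain ⟨W₁, o1, h1⟩ := G.opn
  obtain ⟨W₂, o2, h2⟩ := G'.opn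
  obtain ⟨N, N0, hN⟩ := P022E.GW.Fx2.fin_ram (W₁ ⊓ W₂) (o1.inter o2)
  obtain ⟨l, φ, hl, o, ⟨P, hP, lP, fr⟩, k1, k2⟩ := P022K.Cheb.exists_fr
    (O := {φ | g⁻¹ * φ ∈ GK j ⊓ (W₁ ⊓ W₂)}) (g := g)
    (((isOpen_GK j).inter (o1.inter o2)).preimage (continuous_const.mul continuous_id)) (by simp)
    (3 * t * (discr M).natAbs * N).primeFactors
  rw [Nat.mem_primeFactors_of_ne_zero (by simp [t0.ne', discr_ne_zero, N0]), and_iff_right hl] at o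
  have mφ : φ ∈ GK j := by simpa using mul_mem m k1
  have a := P004C.Al.Sx.deg_one hP hl lP fr mφ
  have ov : Ov l P := ⟨hl, hP, lP⟩
  have u := hN P hP fun d => o (((P004C.Al.Rc.nat_mem
    (j := j) ov).1 ((H651.natCast_mem_below j).2 d)).mul_left _)
  refine ⟨below j P, l, Smo.sm_of hl
    (fun e => o (e ▸ ((dvd_mul_right _ _).mul_right _).mul_right _)) a
    fun d => o ((d.mul_left _).mul_right _),
    hl.coprime_iff_not_dvd.2 fun d => o (((d.mul_left _).mul_right _).mul_right _), ?_, ?_⟩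
  · rw [k.unr l P ov (fun ⟨i, a, b, c⟩ => c (h1 i a (u i b).1)) φ mφ (by rwa [a]),
      ← mul_inv_cancel_left g φ, G.mul _ m _ k1, h1 _ k1 k2.1, mul_one]
  · rw [k'.unr l P ov (fun ⟨i, a, b, c⟩ => c (h2 i a (u i b).2)) φ mφ (by rwa [a]),
      ← mul_inv_cancel_left g φ, G'.mul _ m _ k1, h2 _ k1 k2.2, mul_one]

theorem num {V : AbsoluteValue ℂ ℝ} (h : V3 V) {k l : ℕ} {ζ lam : ℂ}
    (z : IsPrimitiveRoot ζ (3 * 3 ^ k)) (hl : ¬ 3 ∣ l) (a : V (lam - 1) ≤ 1 / 3) :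
    V (ζ - 1) ≤ V (1 - l * (ζ * lam)) := by
  have v := Iq.vz h.1 h.2 k ζ z
  have lt := Iq.v_lt v
  have gt : 1 / 3 < V (ζ - 1) := by
    simpa using Iq.v_gt (a := 1) (V.nonneg _) v (by have := Nat.one_le_pow k 3 three_pos; omega)
  have z1 : V ζ = 1 := Iq.rt (by positivity) z.pow_eq_one
  have i : ∀ n : ℕ, V n ≤ 1 := fun n => h.1.apply_natCast_le_one
  have i3 : ∀ n : ℕ, V (3 * n) ≤ 1 / 3 := fun n => by
    rw [map_mul, h.2]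
    exact mul_le_of_le_one_right (by norm_num) (i n)
  have b : V (l * (lam - 1)) ≤ 1 / 3 := by
    rw [map_mul]
    exact (mul_le_of_le_one_left (V.nonneg _) (i l)).trans a
  obtain ⟨m, e | e⟩ : ∃ m, l = 3 * m + 1 ∨ l + 1 = 3 * m := ⟨(l + 1) / 3, by omega⟩
  · have e' : (l : ℂ) = 3 * m + 1 := by exact_mod_cast e
    rw [show l * (ζ * lam) = ζ * (l * lam) by ring, Iq.near h.1 z1]
    rw [show l * lam - 1 = l * (lam - 1) + 3 * m by rw [e']; ring]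
    exact ((h.1 _ _).trans (max_le b (i3 m))).trans_lt gt
  · have e' : (l : ℂ) + 1 = 3 * m := by exact_mod_cast e
    have t : V 2 = 1 := by
      rw [show (2 : ℂ) = -1 + 3 by norm_num, Iq.add_eq h.1 (by rw [h.2]; norm_num), V.map_neg,
        map_one]
    rw [show 1 - l * (ζ * lam) = 2 + (ζ - 1 + -ζ * (l * (lam - 1) + 3 * m)) by rw [← e']; ring,
      Iq.add_eq h.1, t]
    · exact lt.le
    rw [t]
    refine (h.1 _ _).trans_lt (max_lt lt ?_)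
    rw [map_mul, V.map_neg, z1, one_mul]
    exact ((h.1 _ _).trans (max_le b (i3 m))).trans_lt (by norm_num)

end S3

/-- **smoothing primes which depend on the layer** -/
theorem sm3 (hI : IOT) (hV : LVX) {e : Crv} (b : Fld e) {ι V} (hP : Pl ι V (e.P 3)) {M : Type}
    [Field M] [NumberField M] [Algebra b.K M] {jM : M →+* Qb} {c k : ℕ}
    {χ : GQ → ZMod (3 * 3 ^ k)} (W : Lw jM c k χ)
    (G : Gc jM (fun g => ze (3 * 3 ^ k) (χ g).val) (3 * 3 ^ k)) {χM}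
    (iχ : Ic jM (fun g => ze (3 * 3 ^ k) (χ g).val) χM) {r : ℕ} (hr : r ∈ Fa k) {ξ : Ideal (𝓞 b.K) → ℂ}
    (hξ : ∀ I, χM I ^ r = ξ (Ideal.relNorm (𝓞 b.K) I)) {θ ψ} (Gθ : Gc jM θ 2) (iψ : Ic jM θ ψ)
    {h κ lam} (hl : La (Jc b.j) h κ lam) (t : ℕ) (t0 : 0 < t) :
    ∃ (s : Ideal (𝓞 M)) (l : ℕ), Sm s l ∧ l.Coprime t ∧ (ψ s = -1 ∨ V (ze (3 * 3 ^ k) r - 1) ≤
      V (1 - l * (ψ s * (ξ (Ideal.relNorm (𝓞 b.K) s) * lam (Ideal.relNorm (𝓞 b.K) s))))) := by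
  have : Fact (1 < 3 * 3 ^ k) := ⟨by have := Nat.one_le_pow k 3 (by norm_num); omega⟩
  obtain ⟨q, p, d⟩ := Nat.exists_prime_and_dvd W.one.ne'
  obtain ⟨P, o⟩ := P022K.GW.Pl.ex_ov p
  obtain ⟨g, m, -, g1⟩ := W.ram q P o d
  obtain ⟨s, l, sm, co, e1, e2⟩ := S3.ex Gθ iψ G iχ m t0
  refine ⟨s, l, sm, co, ((sq_eq_one_iff.1 (Gθ.pow g m)).symm.imp e1.trans fun u => ?_)⟩
  obtain ⟨hv, k2⟩ := (hI _ (Ly.ov3 e)).2 ι V hP
  obtain ⟨-, k3, -⟩ := k2 b.K b.j _ _ (hV e b).1 (hV e b).2.1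
  have l3 : ¬ 3 ∣ l := fun x =>
    sm.2.1 ((Nat.prime_dvd_prime_iff_eq Nat.prime_three sm.1).1 x).symm
  have n : Ideal.absNorm (Ideal.relNorm (𝓞 b.K) s) = l := by
    rw [← sm.2.2.1, ← Ideal.absNorm_relNorm ℤ, Ideal.relNorm_relNorm, Ideal.absNorm_relNorm]
  obtain ⟨α, a1, a2⟩ := hl.2 (Ideal.relNorm (𝓞 b.K) s) fun z => sm.1.ne_zero (by
    rw [← n, z, Ideal.absNorm_bot])
  have a3 : V (Jc b.j α) = 1 := by
    refine (k3 α).1.eq_of_not_lt fun t => ?_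
    have t1 := (Ideal.span_singleton_le_iff_mem _).2 ((k3 α).2.1.1 t)
    rw [a1] at t1
    exact l3 (Ly.dv (Ly.ov3 e) ((Ly.mb b.j l).1 ((P004R.Gl.below_pr b.j
      (Ly.ov3 e).2.1).mem_of_pow_mem _ (t1 (Ideal.pow_mem_pow (n ▸ Ideal.absNorm_mem _) _)))))
  obtain ⟨w, hw⟩ := (k3 α).2.2
  rw [e1, u, one_mul, ← hξ, e2, g1, ZMod.val_one, Nat.cast_one, ← Iq.ze_nat]
  exact S3.num hv (Iq.ze_pr (Iq.fa hr) k) l3 (a2 ▸ Ly.sq1 hv a3 hw κ)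

end Vale.Agent.P014Y.Tp
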